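import Vale.Agent.P002.Prod.Linalg

/-!
Representations of a group with prescribed classes at marked elements, the density property, the
data describing the characters, and elementary facts about conjugacy types and unit points.
-/

namespace Vale.Agent.P002

open Matrix MvPolynomial

variable {G : Type*} [Group G] {J : Type*} {r : ℕ}

/-- The coordinates of a representation. -/
abbrev RVar (G : Type*) (r : ℕ) : Type _ := G × Fin r × Fin r

/-- The matrix entries of a representation. -/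
def ev (ρ : G →* Mat r ℂ) : RVar G r → ℂ := fun v => ρ v.1 v.2.1 v.2.2

/-- All entries lie in `L` and are algebraic integers. -/
def IntOn (L : IntermediateField ℚ ℂ) (ρ : G →* Mat r ℂ) : Prop :=
  ∀ v, ev ρ v ∈ L ∧ IsIntegral ℤ (ev ρ v)

/-- The marked elements go to the prescribed classes. -/
def HasClass (μ : J → G) (K : J → Mat r ℂ) (ρ : G →* Mat r ℂ) : Prop :=
  ∀ j, ∃ S : Mat r ℂ, IsUnit S.det ∧ ρ (μ j) = S * K j * S⁻¹

/-- Determinant one and prescribed classes. -/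
def SLRep (μ : J → G) (K : J → Mat r ℂ) (ρ : G →* Mat r ℂ) : Prop :=
  (∀ g, (ρ g).det = 1) ∧ HasClass μ K ρ

/-- A polynomial taking equal values at equivalent representations. -/
def InvF (P : (G →* Mat r ℂ) → Prop) (f : MvPolynomial (RVar G r) ℂ) : Prop :=
  ∀ ρ ρ' : G →* Mat r ℂ, ∀ S : Mat r ℂ, P ρ → P ρ' → IsUnit S.det →
    (∀ g, ρ' g * S = S * ρ g) → eval (ev ρ') f = eval (ev ρ) f

/-- One field makes the integral irreducible representations dense among the irreducible ones. -/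
def Dens (μ : J → G) : Prop :=
  ∀ r : ℕ, 0 < r → ∀ K : J → Mat r ℂ, (∀ j, QUni (K j)) →
    ∃ L : IntermediateField ℚ ℂ, FiniteDimensional ℚ L ∧
      ∀ f : MvPolynomial (RVar G r) ℂ, InvF (SLRep μ K) f →
        (∀ ρ, SLRep μ K ρ → IntOn L ρ → IrredF ρ → eval (ev ρ) f = 0) →
        ∀ ρ, SLRep μ K ρ → IrredF ρ → eval (ev ρ) f = 0

/-- A description of the characters of a group with marked elements. -/
structure Chars (μ : J → G) where
  /-- The free directions. -/
  E : Type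
  [fin : Fintype E]
  /-- Their generators. -/
  h : E → G
  /-- The exponents. -/
  π : G → E → ℤ
  π_mul : ∀ a b, π (a * b) = π a + π b
  π_mark : ∀ j e, π (μ j) e = 0
  π_gen : ∀ e, π (h e) e = 1
  π_off : ∀ e e', e ≠ e' → π (h e) e' = 0
  gen : Subgroup.closure (Set.range h ∪ Set.range μ) = ⊤
  root : ∀ χ : G →* ℂ, ∀ n : ℕ, 0 < n → (∀ j, RU (χ (μ j))) →
    ∃ ψ : G →* ℂ, ∀ g, ψ g ^ n = χ g

attribute [instance] Chars.fin

theorem char_ne_zero (χ : G →* ℂ) (g : G) : χ g ≠ 0 := fun h => by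
  have : χ g * χ g⁻¹ = 1 := by rw [← map_mul, mul_inv_cancel, map_one]
  simp [h] at this

/-- The determinant of a representation. -/
noncomputable def detH (ρ : G →* Mat r ℂ) : G →* ℂ := Matrix.detMonoidHom.comp ρ

theorem detH_apply (ρ : G →* Mat r ℂ) (g : G) : detH ρ g = (ρ g).det := rfl

theorem isUnit_det_rep (ρ : G →* Mat r ℂ) (g : G) : IsUnit (ρ g).det :=
  isUnit_iff_ne_zero.2 (char_ne_zero (detH ρ) g)

/-- A representation multiplied by a character. -/
def scaleH (χ : G →* ℂ) (ρ : G →* Mat r ℂ) : G →* Mat r ℂ where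
  toFun g := χ g • ρ g
  map_one' := by simp
  map_mul' a b := by
    rw [map_mul, map_mul, Matrix.smul_mul, Matrix.mul_smul, smul_smul]

theorem scaleH_apply (χ : G →* ℂ) (ρ : G →* Mat r ℂ) (g : G) : scaleH χ ρ g = χ g • ρ g := rfl

theorem semisimpleF_smul {ι : Type*} {h : ι → Mat r ℂ} {c : ι → ℂ} (hc : ∀ i, c i ≠ 0)
    (hs : SemisimpleF h) : SemisimpleF fun i => c i • h i := by
  intro W hW
  obtain ⟨W', h1, h2⟩ := hs W fun i v hv => by
    simpa [smul_mulVec, smul_smul, hc i] using W.smul_mem (c i)⁻¹ (hW i v hv)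
  exact ⟨W', fun i v hv => by
    rw [smul_mulVec]; exact W'.smul_mem _ (h1 i v hv), h2⟩

theorem irredF_smul {ι : Type*} {h : ι → Mat r ℂ} {c : ι → ℂ} (hc : ∀ i, c i ≠ 0)
    (hs : IrredF h) : IrredF fun i => c i • h i := by
  refine eq_top_iff.2 (hs.symm.le.trans (Algebra.adjoin_le ?_))
  rintro _ ⟨i, rfl⟩
  have := Subalgebra.smul_mem (Algebra.adjoin ℂ (Set.range fun i => c i • h i))
    (Algebra.subset_adjoin ⟨i, rfl⟩) (c i)⁻¹
  simpa [smul_smul, hc i] using this

theorem simpF_semisimple {ι : Type*} {h : ι → Mat r ℂ} (hs : SimpF h) : SemisimpleF h := by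
  intro W hW
  rcases hs W hW with rfl | rfl
  · exact ⟨⊤, fun _ _ _ => Submodule.mem_top, isCompl_bot_top⟩
  · exact ⟨⊥, fun j v hv => by rw [(Submodule.mem_bot ℂ).1 hv]; simp, isCompl_top_bot⟩

/-! ### Eigenvalues -/

theorem isRoot_charpoly_iff (M : Mat r ℂ) (z : ℂ) :
    M.charpoly.IsRoot z ↔ ∃ v, v ≠ 0 ∧ M *ᵥ v = z • v := by
  rw [Polynomial.IsRoot.def, Matrix.eval_charpoly, ← Matrix.exists_mulVec_eq_zero_iff]
  refine exists_congr fun v => and_congr_right fun _ => ?_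
  rw [sub_mulVec, sub_eq_zero, eq_comm]
  refine Eq.congr_right ?_
  ext i
  simp [Matrix.scalar_apply, mulVec_diagonal]

/-- All eigenvalues have order dividing `N`. -/
def RootN (N : ℕ) (M : Mat r ℂ) : Prop := ∀ z : ℂ, M.charpoly.IsRoot z → z ^ N = 1

theorem RootN.of_intertwine {a N : ℕ} {M : Mat r ℂ} {A : Mat a ℂ} (hM : RootN N M)
    (φ : (Fin a → ℂ) →ₗ[ℂ] (Fin r → ℂ)) (hφ : Function.Injective φ)
    (h : ∀ v, M *ᵥ φ v = φ (A *ᵥ v)) : RootN N A := fun z hz => by
  obtain ⟨v, hv, e⟩ := (isRoot_charpoly_iff A z).1 hz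
  refine hM z ((isRoot_charpoly_iff M z).2 ⟨φ v, fun h0 => hv (hφ ?_), ?_⟩)
  · rw [h0, map_zero]
  · rw [h, e, map_smul]

theorem RootN.smul {N : ℕ} {M : Mat r ℂ} (hM : RootN N M) {c : ℂ} (hc : c ^ N = 1) (hc0 : c ≠ 0) :
    RootN N (c • M) := fun z hz => by
  obtain ⟨v, hv, e⟩ := (isRoot_charpoly_iff _ z).1 hz
  have h : M *ᵥ v = (c⁻¹ * z) • v := by
    rw [← smul_smul, ← e, smul_mulVec, smul_smul, inv_mul_cancel₀ hc0, one_smul]
  have := hM _ ((isRoot_charpoly_iff M _).2 ⟨v, hv, h⟩)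
  rwa [mul_pow, inv_pow, hc, inv_one, one_mul] at this

theorem RootN.conj {N : ℕ} {M S : Mat r ℂ} (hM : RootN N M) (hS : IsUnit S.det) :
    RootN N (S * M * S⁻¹) := fun z hz => hM z (by rwa [charpoly_conj hS] at hz)

theorem RootN.mono {N N' : ℕ} {M : Mat r ℂ} (hM : RootN N M) (h : N ∣ N') : RootN N' M :=
  fun z hz => by
    obtain ⟨k, rfl⟩ := h
    rw [pow_mul, hM z hz, one_pow]

theorem RootN.det {N : ℕ} {M : Mat r ℂ} (hM : RootN N M) : M.det ^ N = 1 := by
  rw [M.det_eq_prod_roots_charpoly, ← Multiset.map_id' M.charpoly.roots, ← Multiset.prod_map_pow]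
  refine Multiset.prod_eq_one fun x hx => ?_
  obtain ⟨z, hz, rfl⟩ := Multiset.mem_map.1 hx
  exact hM z (Polynomial.isRoot_of_mem_roots hz)

theorem exists_rootN [Finite J] {K : J → Mat r ℂ} (hK : ∀ j, QUni (K j)) :
    ∃ N : ℕ, 0 < N ∧ ∀ j, RootN N (K j) := by
  classical
  have := Fintype.ofFinite J
  let s : Finset ℂ := Finset.univ.biUnion fun j => (K j).charpoly.roots.toFinset
  have hord : ∀ z ∈ s, ∃ N : ℕ, 0 < N ∧ z ^ N = 1 := fun z hz => by
    obtain ⟨j, -, hz⟩ := Finset.mem_biUnion.1 hz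
    exact hK j z (Polynomial.isRoot_of_mem_roots (Multiset.mem_toFinset.1 hz))
  choose n hn0 hn using hord
  refine ⟨∏ z ∈ s.attach, n z.1 z.2, Finset.prod_pos fun z _ => hn0 _ _, fun j z hz => ?_⟩
  have hmem : z ∈ s := Finset.mem_biUnion.2 ⟨j, Finset.mem_univ j, Multiset.mem_toFinset.2
    ((Polynomial.mem_roots (charpoly_monic (K j)).ne_zero).2 hz)⟩
  obtain ⟨k, hk⟩ := Finset.dvd_prod_of_mem (fun x : s => n x.1 x.2)
    (Finset.mem_attach s ⟨z, hmem⟩)
  rw [hk, pow_mul, hn z hmem, one_pow]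

/-- The finitely many conjugacy types with eigenvalues of order dividing `N`. -/
abbrev Ty (J : Type*) (r N : ℕ) : Type _ :=
  J → (Fin r → {z : ℂ // z ^ N = 1}) × (Fin r → Bool)

instance finite_roots (N : ℕ) [NeZero N] : Finite {z : ℂ // z ^ N = 1} := by
  have : {z : ℂ | z ^ N = 1}.Finite := by
    refine Set.Finite.subset (Polynomial.nthRootsFinset N (1 : ℂ)).finite_toSet fun z hz => ?_
    exact Finset.mem_coe.2 ((Polynomial.mem_nthRootsFinset (NeZero.pos N) _).2 hz)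
  exact this.to_subtype

/-- The matrix of a type. -/
def tyMat {N : ℕ} (t : Ty J r N) (j : J) : Mat r ℂ :=
  bidi (fun i => ((t j).1 i : ℂ)) fun i => if (t j).2 i then 1 else 0

theorem qUni_tyMat {N : ℕ} (hN : 0 < N) (t : Ty J r N) (j : J) : QUni (tyMat t j) := fun z hz => by
  rw [tyMat, charpoly_of_isUpperTriangular _ (bidi_tri _ _), Polynomial.IsRoot.def,
    Polynomial.eval_prod, Finset.prod_eq_zero_iff] at hz
  obtain ⟨i, -, hi⟩ := hz
  rw [bidi_apply_self, Polynomial.eval_sub, Polynomial.eval_X, Polynomial.eval_C,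
    sub_eq_zero] at hi
  exact ⟨N, hN, by rw [hi]; exact ((t j).1 i).2⟩

theorem exists_ty {N : ℕ} {K : J → Mat r ℂ} (hK : ∀ j, RootN N (K j)) :
    ∃ t : Ty J r N, ∀ j, ∃ S : Mat r ℂ, IsUnit S.det ∧ K j = S * tyMat t j * S⁻¹ := by
  choose lam c hroot hc hsim using fun j => exists_bidi (K j)
  refine ⟨fun j => (fun i => ⟨lam j i, hK j _ (hroot j i)⟩, fun i => decide (c j i = 1)), fun j => ?_⟩
  obtain ⟨S, hS, e⟩ := hsim j 1 one_ne_zero
  refine ⟨S, hS, e.trans ?_⟩
  have : tyMat (fun j => ((fun i => (⟨lam j i, hK j _ (hroot j i)⟩ : {z : ℂ // z ^ N = 1})),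
      fun i => decide (c j i = 1))) j = bidi (lam j) fun i => 1 * c j i := by
    rw [tyMat]
    congr 1
    funext i
    rcases hc j i with h | h <;> simp [h]
  rw [this]

/-! ### Characters -/

theorem Chars.char_ext {μ : J → G} (C : Chars μ) {M : Type*} [CommMonoid M] {χ χ' : G →* M}
    (h1 : ∀ e, χ (C.h e) = χ' (C.h e)) (h2 : ∀ j, χ (μ j) = χ' (μ j)) : χ = χ' := by
  refine MonoidHom.eq_of_eqOn_dense C.gen ?_
  rintro _ (⟨e, rfl⟩ | ⟨j, rfl⟩)
  exacts [h1 e, h2 j]

theorem Chars.pow_eq_one {μ : J → G} (C : Chars μ) {χ : G →* ℂ} {N : ℕ}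
    (h1 : ∀ e, χ (C.h e) ^ N = 1) (h2 : ∀ j, χ (μ j) ^ N = 1) (g : G) : χ g ^ N = 1 := by
  have : (powMonoidHom N).comp χ = 1 := C.char_ext (fun e => by simpa using h1 e)
    (fun j => by simpa using h2 j)
  simpa using DFunLike.congr_fun this g

/-- The character with prescribed values on the free directions. -/
noncomputable def Chars.tw {μ : J → G} (C : Chars μ) (t : C.E → ℂ) (ht : ∀ e, t e ≠ 0) :
    G →* ℂ where
  toFun g := ∏ e, t e ^ C.π g e
  map_one' := by
    have h : C.π 1 = 0 := by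
      have := C.π_mul 1 1
      rw [one_mul] at this
      simpa using this
    simp [h]
  map_mul' a b := by
    rw [← Finset.prod_mul_distrib]
    refine Finset.prod_congr rfl fun e _ => ?_
    rw [C.π_mul, Pi.add_apply, zpow_add₀ (ht e)]

theorem Chars.tw_mark {μ : J → G} (C : Chars μ) (t : C.E → ℂ) (ht : ∀ e, t e ≠ 0) (j : J) :
    C.tw t ht (μ j) = 1 := by
  simp [Chars.tw, C.π_mark]

theorem Chars.tw_gen {μ : J → G} (C : Chars μ) (t : C.E → ℂ) (ht : ∀ e, t e ≠ 0) (e : C.E) :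
    C.tw t ht (C.h e) = t e := by
  classical
  rw [show C.tw t ht (C.h e) = ∏ e', t e' ^ C.π (C.h e) e' from rfl, Finset.prod_eq_single e]
  · simp [C.π_gen]
  · intro e' _ he
    simp [C.π_off e e' (Ne.symm he)]
  · simp

/-! ### Fields -/

theorem exists_field {ι : Type*} [Finite ι] (Ls : ι → IntermediateField ℚ ℂ)
    (hLs : ∀ i, FiniteDimensional ℚ (Ls i)) (s : Finset ℂ) (hs : ∀ z ∈ s, IsIntegral ℤ z) :
    ∃ L : IntermediateField ℚ ℂ, FiniteDimensional ℚ L ∧ (∀ i, Ls i ≤ L) ∧ ∀ z ∈ s, z ∈ L := by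
  have h1 : FiniteDimensional ℚ (IntermediateField.adjoin ℚ (s : Set ℂ)) :=
    IntermediateField.finiteDimensional_adjoin fun z hz => (hs z hz).tower_top
  have h2 : FiniteDimensional ℚ (⨆ i, Ls i : IntermediateField ℚ ℂ) := by
    have := hLs
    exact IntermediateField.finiteDimensional_iSup_of_finite
  refine ⟨(⨆ i, Ls i) ⊔ IntermediateField.adjoin ℚ (s : Set ℂ),
    IntermediateField.finiteDimensional_sup _ _, fun i => le_sup_of_le_left (le_iSup Ls i),
    fun z hz => (le_sup_right : IntermediateField.adjoin ℚ (s : Set ℂ) ≤ _)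
      (IntermediateField.subset_adjoin ℚ _ hz)⟩

theorem IntOn.mono {L L' : IntermediateField ℚ ℂ} (h : L ≤ L') {ρ : G →* Mat r ℂ}
    (hρ : IntOn L ρ) : IntOn L' ρ := fun v => ⟨h (hρ v).1, (hρ v).2⟩

theorem exists_unit : ∃ ε ε' : ℂ, ε * ε' = 1 ∧ IsIntegral ℤ ε ∧ IsIntegral ℤ ε' ∧
    Function.Injective fun n : ℕ => ε ^ n := by
  have hsq : ((Real.sqrt 2 : ℝ) : ℂ) ^ 2 = 2 := by
    rw [← Complex.ofReal_pow, Real.sq_sqrt (by norm_num)]; norm_num
  have hi : IsIntegral ℤ ((Real.sqrt 2 : ℝ) : ℂ) := by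
    refine IsIntegral.of_pow (n := 2) two_pos ?_
    rw [hsq, show (2 : ℂ) = algebraMap ℤ ℂ 2 by simp]
    exact isIntegral_algebraMap
  refine ⟨((1 + Real.sqrt 2 : ℝ) : ℂ), ((Real.sqrt 2 - 1 : ℝ) : ℂ), ?_, ?_, ?_, ?_⟩
  · rw [← Complex.ofReal_mul, ← Complex.ofReal_one]
    congr 1
    nlinarith [Real.sq_sqrt (show (0 : ℝ) ≤ 2 by norm_num)]
  · push_cast
    exact isIntegral_one.add hi
  · push_cast
    exact hi.sub isIntegral_one
  · intro m n h
    simp only [← Complex.ofReal_pow, Complex.ofReal_inj] at h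
    have hpos : 0 < Real.sqrt 2 := by positivity
    exact (pow_right_strictMono₀ (by linarith)).injective h

/-- A Laurent polynomial vanishing on the powers of a unit of infinite order vanishes everywhere. -/
theorem laurent_zero {E : Type*} [Fintype E] {ε ε' : ℂ} (hε : ε * ε' = 1)
    (hinj : Function.Injective fun n : ℕ => ε ^ n) (p : MvPolynomial (E ⊕ E) ℂ)
    (hp : ∀ k : E → ℕ, eval (Sum.elim (fun e => ε ^ k e) (fun e => ε' ^ k e)) p = 0)
    (u : E → ℂ) (hu : ∀ e, u e ≠ 0) : eval (Sum.elim u fun e => (u e)⁻¹) p = 0 := by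
  classical
  have key : ∃ (N : ℕ) (q : MvPolynomial E ℂ), ∀ u : E → ℂ, (∀ e, u e ≠ 0) →
      eval (Sum.elim u fun e => (u e)⁻¹) p * (∏ e, u e) ^ N = eval u q := by
    clear hp
    induction p using MvPolynomial.induction_on with
    | C a => exact ⟨0, C a, fun u _ => by simp⟩
    | add p q ihp ihq =>
      obtain ⟨N, a, ha⟩ := ihp
      obtain ⟨M, b, hb⟩ := ihq
      refine ⟨N + M, a * (∏ e, X e) ^ M + b * (∏ e, X e) ^ N, fun u hu => ?_⟩
      simp only [map_add, map_mul, map_pow, map_prod, eval_X, ← ha u hu, ← hb u hu]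
      ring
    | mul_X p i ih =>
      obtain ⟨N, a, ha⟩ := ih
      rcases i with e | e
      · exact ⟨N, a * X e, fun u hu => by
          simp only [map_mul, eval_X, Sum.elim_inl, ← ha u hu]; ring⟩
      · refine ⟨N + 1, a * ∏ e' ∈ Finset.univ.erase e, X e', fun u hu => ?_⟩
        simp only [map_mul, eval_X, Sum.elim_inr, map_prod, ← ha u hu]
        rw [pow_succ, ← Finset.mul_prod_erase _ u (Finset.mem_univ e)]
        have := hu e
        field_simp
  obtain ⟨N, q, hq⟩ := key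
  have hε0 : ε ≠ 0 := left_ne_zero_of_mul_eq_one hε
  have hq0 : q = 0 := by
    refine MvPolynomial.funext_set (fun _ => Set.range fun n : ℕ => ε ^ n)
      (fun _ => Set.infinite_range_of_injective hinj) fun x hx => ?_
    choose k hk using fun e => hx e (Set.mem_univ e)
    have e1 : x = fun e => ε ^ k e := funext fun e => (hk e).symm
    have h := hq x fun e => by rw [e1]; exact pow_ne_zero _ hε0
    rw [map_zero, ← h, e1, show (fun e => (ε ^ k e)⁻¹) = fun e => ε' ^ k e from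
      funext fun e => by rw [← inv_pow, eq_inv_of_mul_eq_one_right hε], hp, zero_mul]
  have h := hq u hu
  rw [hq0, map_zero, mul_eq_zero] at h
  exact h.resolve_right (pow_ne_zero _ (Finset.prod_ne_zero_iff.2 fun e _ => hu e))

theorem eval_subst {σ τ : Type*} (x : τ → ℂ) (s : σ → MvPolynomial τ ℂ) (f : MvPolynomial σ ℂ) :
    eval x (bind₁ s f) = eval (fun v => eval x (s v)) f :=
  eval₂Hom_bind₁ (RingHom.id ℂ) x s f

end Vale.Agent.P002
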