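import Vale.Agent.P002.Prod.Mul
import Vale.Agent.P002.Punct.Main
import Vale.Agent.P002.Full.Main

/-!
Free groups and surface groups: description of the characters and density of the integral
irreducible representations.
-/

namespace Vale.Agent.P002

open Matrix MvPolynomial

/-- The relator of a surface with punctures. -/
def surfRel (n s : ℕ) : FreeGroup ((Fin n ⊕ Fin n) ⊕ Fin s) :=
  (List.ofFn fun i => FreeGroup.of (Sum.inl (Sum.inl i)) * FreeGroup.of (Sum.inl (Sum.inr i)) *
      (FreeGroup.of (Sum.inl (Sum.inl i)))⁻¹ * (FreeGroup.of (Sum.inl (Sum.inr i)))⁻¹).prod *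
    (List.ofFn fun j => FreeGroup.of (Sum.inr j)).prod

/-- The fundamental group of a surface of genus `n` with `s` punctures. -/
abbrev Surf (n s : ℕ) : Type := PresentedGroup ({surfRel n s} : Set _)

/-- The loops around the punctures. -/
def surfMark (n s : ℕ) (j : Fin s) : Surf n s := PresentedGroup.of (Sum.inr j)

theorem lift_surfRel {n s : ℕ} {M : Type*} [Group M] (v : (Fin n ⊕ Fin n) ⊕ Fin s → M) :
    FreeGroup.lift v (surfRel n s) =
      relG ((fun i => v (Sum.inl (Sum.inl i))), fun i => v (Sum.inl (Sum.inr i))) *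
        (List.ofFn fun j => v (Sum.inr j)).prod := by
  simp [surfRel, rel, map_list_prod, List.map_ofFn, Function.comp_def]

/-- The homomorphism out of a surface group given by the images of the generators. -/
def surfLift {n s : ℕ} {M : Type*} [Group M] (v : (Fin n ⊕ Fin n) ⊕ Fin s → M)
    (h : relG ((fun i => v (Sum.inl (Sum.inl i))), fun i => v (Sum.inl (Sum.inr i))) *
      (List.ofFn fun j => v (Sum.inr j)).prod = 1) : Surf n s →* M :=
  PresentedGroup.toGroup (f := v) fun x hx => by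
    rw [Set.mem_singleton_iff.1 hx, lift_surfRel, h]

theorem relG_comm {n : ℕ} {M : Type*} [CommGroup M] (p : Tup n M) : relG p = 1 := by
  refine List.prod_eq_one fun x hx => ?_
  obtain ⟨i, rfl⟩ := List.mem_ofFn.1 hx
  simp [mul_comm (p.1 i) (p.2 i)]

theorem surf_relation {n s : ℕ} {M : Type*} [Group M] (θ : Surf n s →* M) :
    relG ((fun i => θ (PresentedGroup.of (Sum.inl (Sum.inl i)))),
        fun i => θ (PresentedGroup.of (Sum.inl (Sum.inr i)))) *
      (List.ofFn fun j => θ (surfMark n s j)).prod = 1 := by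
  have h := lift_surfRel (fun x => θ (PresentedGroup.of x))
  have e : FreeGroup.lift (fun x => θ (PresentedGroup.of x)) =
      θ.comp (PresentedGroup.mk ({surfRel n s} : Set _)) :=
    FreeGroup.ext_hom _ _ (fun x => by simp [PresentedGroup.of])
  rw [e, MonoidHom.comp_apply, PresentedGroup.one_of_mem (Set.mem_singleton _), map_one] at h
  exact h.symm

/-- A character as a homomorphism into the units. -/
noncomputable def unitsChar {G : Type*} [Group G] (χ : G →* ℂ) : G →* ℂˣ where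
  toFun g := Units.mk0 (χ g) (char_ne_zero χ g)
  map_one' := Units.ext (map_one χ)
  map_mul' a b := Units.ext (map_mul χ a b)

theorem exists_surf_chars (n s : ℕ) : Nonempty (Chars (surfMark n s)) := by
  classical
  let v : (Fin n ⊕ Fin n) ⊕ Fin s → Multiplicative (Fin n ⊕ Fin n → ℤ) :=
    Sum.elim (fun e => Multiplicative.ofAdd (Pi.single e 1)) fun _ => 1
  let π := surfLift v (by rw [relG_comm, one_mul]; simp [v])
  refine ⟨{
    E := Fin n ⊕ Fin n
    h := fun e => PresentedGroup.of (Sum.inl e)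
    π := fun g => Multiplicative.toAdd (π g)
    π_mul := fun a b => by rw [map_mul, toAdd_mul]
    π_mark := fun j e => by simp [π, surfLift, surfMark, v]
    π_gen := fun e => by simp [π, surfLift, v]
    π_off := fun e e' h => by simp [π, surfLift, v, Ne.symm h]
    gen := ?_
    root := fun χ r hr _ => ?_ }⟩
  · refine eq_top_iff.2 ((PresentedGroup.closure_range_of _).symm.le.trans
      (Subgroup.closure_mono ?_))
    rintro _ ⟨(e | j), rfl⟩
    exacts [Or.inl ⟨e, rfl⟩, Or.inr ⟨j, rfl⟩]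
  choose x hx using fun k : (Fin n ⊕ Fin n) ⊕ Fin s =>
    IsAlgClosed.exists_pow_nat_eq (χ (PresentedGroup.of k)) hr
  have hx0 : ∀ k, x k ≠ 0 := fun k h => char_ne_zero χ (PresentedGroup.of k)
    (by rw [← hx k, h, zero_pow hr.ne'])
  let u : (Fin n ⊕ Fin n) ⊕ Fin s → ℂˣ := fun k => Units.mk0 (x k) (hx0 k)
  have hu : ∀ k, u k ^ r = unitsChar χ (PresentedGroup.of k) := fun k =>
    Units.ext (by simpa [u, unitsChar] using hx k)
  obtain ⟨w, hw1, hw⟩ : ∃ w : Fin s → ℂˣ, (List.ofFn w).prod = 1 ∧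
      ∀ j, w j ^ r = unitsChar χ (surfMark n s j) := by
    have hprod := surf_relation (unitsChar χ)
    rw [relG_comm, one_mul] at hprod
    rcases s with _ | t
    · exact ⟨Fin.elim0, by simp, fun j => j.elim0⟩
    refine ⟨Fin.cons ((∏ j : Fin t, u (Sum.inr j.succ))⁻¹) fun j => u (Sum.inr j.succ), ?_,
      fun j => ?_⟩
    · simp [List.prod_ofFn, Fin.prod_univ_succ]
    refine Fin.cases ?_ (fun i => ?_) j
    · rw [List.prod_ofFn, Fin.prod_univ_succ, mul_eq_one_iff_eq_inv] at hprod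
      rw [Fin.cons_zero, inv_pow, ← Finset.prod_pow, hprod]
      exact congrArg _ (Finset.prod_congr rfl fun i _ => hu _)
    · rw [Fin.cons_succ]; exact hu _
  let ψ : Surf n s →* ℂˣ := surfLift (Sum.elim (fun e => u (Sum.inl e)) w) (by
    rw [relG_comm, one_mul]; simpa using hw1)
  refine ⟨(Units.coeHom ℂ).comp ψ, fun g => ?_⟩
  have : (powMonoidHom r).comp ψ = unitsChar χ := by
    refine PresentedGroup.ext fun k => ?_
    rcases k with e | j
    · simpa [ψ, surfLift] using hu (Sum.inl e)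
    · simpa [ψ, surfLift, surfMark] using hw j
  simpa [unitsChar] using congrArg Units.val (DFunLike.congr_fun this g)

/-- Nothing is marked. -/
def freeMark (d : ℕ) (j : Fin 0) : FreeGroup (Fin d) := j.elim0

theorem exists_free_chars (d : ℕ) : Nonempty (Chars (freeMark d)) := by
  classical
  let π := FreeGroup.lift fun i : Fin d => Multiplicative.ofAdd (Pi.single i (1 : ℤ) : Fin d → ℤ)
  refine ⟨{
    E := Fin d
    h := FreeGroup.of
    π := fun g => Multiplicative.toAdd (π g)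
    π_mul := fun a b => by rw [map_mul, toAdd_mul]
    π_mark := fun j => j.elim0
    π_gen := fun e => by simp [π]
    π_off := fun e e' h => by simp [π, Ne.symm h]
    gen := eq_top_iff.2 ((FreeGroup.closure_range_of (α := Fin d)).symm.le.trans
      (Subgroup.closure_mono Set.subset_union_left))
    root := fun χ r hr _ => ?_ }⟩
  choose x hx using fun k : Fin d => IsAlgClosed.exists_pow_nat_eq (χ (FreeGroup.of k)) hr
  have hx0 : ∀ k, x k ≠ 0 := fun k h => char_ne_zero χ (FreeGroup.of k)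
    (by rw [← hx k, h, zero_pow hr.ne'])
  let ψ : FreeGroup (Fin d) →* ℂˣ := FreeGroup.lift fun k => Units.mk0 (x k) (hx0 k)
  refine ⟨(Units.coeHom ℂ).comp ψ, fun g => ?_⟩
  have : (powMonoidHom r).comp ψ = unitsChar χ :=
    FreeGroup.ext_hom _ _ fun k => Units.ext (by simpa [ψ, unitsChar] using hx k)
  simpa [unitsChar] using congrArg Units.val (DFunLike.congr_fun this g)

/-! ### From generators to the whole group -/

variable {G : Type} [Group G] {Xg : Type} {r : ℕ}

/-- The entries of the generators. -/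
def genCoord (γ : Xg → G) (ρ : G →* Mat r ℂ) (v : Xg × Fin r × Fin r) : ℂ := ρ (γ v.1) v.2.1 v.2.2

theorem rep_inv (ρ : G →* Mat r ℂ) (g : G) (h : (ρ g).det = 1) : ρ g⁻¹ = adjugate (ρ g) := by
  rw [← adjugate_eq_inv h]
  exact (inv_eq_left_inv (by rw [← map_mul, inv_mul_cancel, map_one])).symm

theorem exists_word_poly {γ : Xg → G} (hγ : Subgroup.closure (Set.range γ) = ⊤) (g : G) :
    ∃ P : Mat r (MvPolynomial (Xg × Fin r × Fin r) ℂ), ∀ ρ : G →* Mat r ℂ,
      (∀ g, (ρ g).det = 1) → ρ g = (eval (genCoord γ ρ)).mapMatrix P := by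
  have hg : g ∈ Subgroup.closure (Set.range γ) := hγ ▸ Subgroup.mem_top g
  induction hg using Subgroup.closure_induction with
  | mem g hg =>
    obtain ⟨x, rfl⟩ := hg
    exact ⟨Matrix.of fun i k => X (x, i, k), fun ρ _ => by
      ext i k; simp [genCoord]⟩
  | one => exact ⟨1, fun ρ _ => by rw [map_one, map_one]⟩
  | mul a b _ _ ha hb =>
    obtain ⟨P, hP⟩ := ha
    obtain ⟨Q, hQ⟩ := hb
    exact ⟨P * Q, fun ρ hρ => by rw [map_mul, map_mul, hP ρ hρ, hQ ρ hρ]⟩
  | inv a _ ha =>
    obtain ⟨P, hP⟩ := ha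
    exact ⟨adjugate P, fun ρ hρ => by
      rw [rep_inv ρ a (hρ a), hP ρ hρ]
      exact ((eval (genCoord γ ρ)).map_adjugate P).symm⟩

theorem intOn_of_gens {γ : Xg → G} (hγ : Subgroup.closure (Set.range γ) = ⊤)
    {L : IntermediateField ℚ ℂ} {ρ : G →* Mat r ℂ} (hd : ∀ g, (ρ g).det = 1)
    (h : ∀ v, genCoord γ ρ v ∈ L ∧ IsIntegral ℤ (genCoord γ ρ v)) : IntOn L ρ := by
  have key : ∀ g, ∃ M : Mat r (intRing L), (intRing L).subtype.mapMatrix M = ρ g := fun g => by
    have hg : g ∈ Subgroup.closure (Set.range γ) := hγ ▸ Subgroup.mem_top g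
    induction hg using Subgroup.closure_induction with
    | mem g hg =>
      obtain ⟨x, rfl⟩ := hg
      exact ⟨Matrix.of fun i k => ⟨_, (mem_intRing L).2 (h (x, i, k))⟩, by ext i k; rfl⟩
    | one => exact ⟨1, by rw [map_one, map_one]⟩
    | mul a b _ _ ha hb =>
      obtain ⟨P, hP⟩ := ha
      obtain ⟨Q, hQ⟩ := hb
      exact ⟨P * Q, by rw [map_mul, map_mul, hP, hQ]⟩
    | inv a _ ha =>
      obtain ⟨P, hP⟩ := ha
      exact ⟨adjugate P, by rw [rep_inv ρ a (hd a), ← hP]; exact (intRing L).subtype.map_adjugate P⟩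
  rintro ⟨g, i, k⟩
  obtain ⟨M, hM⟩ := key g
  rw [show ev ρ (g, i, k) = ρ g i k from rfl, ← hM]
  exact (mem_intRing L).1 (M i k).2

theorem irredF_gens {γ : Xg → G} (hγ : Subgroup.closure (Set.range γ) = ⊤) (ρ : G →* Mat r ℂ) :
    IrredF ρ ↔ IrredF fun x => ρ (γ x) := by
  refine ⟨fun hi => irredF_of_simpF fun W hW => simpF_of_irredF hi W fun g => ?_,
    fun hi => eq_top_iff.2 (hi.symm.le.trans (Algebra.adjoin_mono (by
      rintro _ ⟨x, rfl⟩; exact ⟨γ x, rfl⟩)))⟩
  have hg : g ∈ Subgroup.closure (Set.range γ) := hγ ▸ Subgroup.mem_top g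
  induction hg using Subgroup.closure_induction with
  | mem g hg => obtain ⟨x, rfl⟩ := hg; exact hW x
  | one => intro v hv; rwa [map_one, one_mulVec]
  | mul a b _ _ ha hb =>
    intro v hv
    rw [map_mul, ← mulVec_mulVec]
    exact ha _ (hb v hv)
  | inv a _ ha =>
    intro v hv
    let f : W →ₗ[ℂ] W := (Matrix.toLin' (ρ a)).restrict fun v hv => by simpa using ha v hv
    have hf : Function.Injective f := fun x y hxy => Subtype.ext <| by
      have := congrArg (fun z : W => ρ a⁻¹ *ᵥ (z : Fin r → ℂ)) hxy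
      simpa [f, mulVec_mulVec, ← map_mul] using this
    obtain ⟨⟨w, hw⟩, e⟩ := LinearMap.injective_iff_surjective.1 hf ⟨v, hv⟩
    have e' : ρ a *ᵥ w = v := by simpa [f] using congrArg Subtype.val e
    rw [← e', mulVec_mulVec, ← map_mul, inv_mul_cancel, map_one, one_mulVec]
    exact hw

/-- Density can be tested on the entries of generators. -/
theorem dens_of_gens {J : Type} {μ : J → G} {γ : Xg → G}
    (hγ : Subgroup.closure (Set.range γ) = ⊤)
    (h : ∀ r, 2 ≤ r → ∀ K : J → Mat r ℂ, (∀ j, QUni (K j)) → (∀ j, (K j).det = 1) →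
      ∃ L : IntermediateField ℚ ℂ, FiniteDimensional ℚ L ∧
        ∀ F : MvPolynomial (Xg × Fin r × Fin r) ℂ,
          (∀ ρ, SLRep μ K ρ → (∀ v, genCoord γ ρ v ∈ L ∧ IsIntegral ℤ (genCoord γ ρ v)) →
            IrredF (fun x => ρ (γ x)) → eval (genCoord γ ρ) F = 0) →
          ∀ ρ, SLRep μ K ρ → IrredF (fun x => ρ (γ x)) → eval (genCoord γ ρ) F = 0) :
    Dens μ := by
  intro r hr K hK
  by_cases hdet : ∀ j, (K j).det = 1
  swap
  · refine ⟨⊥, inferInstance, fun f _ _ ρ hρ _ => absurd (fun j => ?_) hdet⟩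
    obtain ⟨S, hS, e⟩ := hρ.2 j
    rw [← det_conj_of hS (K j), ← e, hρ.1]
  rcases Nat.lt_or_ge r 2 with h1 | h2
  · refine ⟨⊥, inferInstance, fun f _ hf ρ hρ hi => hf ρ hρ (fun v => ?_) hi⟩
    obtain rfl : r = 1 := by omega
    have : ρ v.1 = 1 := by
      ext i k
      have h := hρ.1 v.1
      rw [det_fin_one] at h
      fin_cases i; fin_cases k
      simpa using h
    rw [show ev ρ v = (1 : Mat 1 ℂ) v.2.1 v.2.2 by rw [← this]; rfl, Matrix.one_apply]
    split_ifs
    exacts [⟨one_mem _, isIntegral_one⟩, ⟨zero_mem _, isIntegral_zero⟩]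
  obtain ⟨L, hL, hF⟩ := h r h2 K hK hdet
  refine ⟨L, hL, fun f _ hf ρ hρ hi => ?_⟩
  choose P hP using fun g => exists_word_poly (r := r) hγ g
  have hs : ∀ σ, SLRep μ K σ →
      eval (genCoord γ σ) (bind₁ (fun v => P v.1 v.2.1 v.2.2) f) = eval (ev σ) f := fun σ hσ => by
    rw [eval_subst]
    congr 2
    funext v
    rw [show ev σ v = σ v.1 v.2.1 v.2.2 from rfl, hP v.1 σ hσ.1]
    rfl
  rw [← hs ρ hρ]
  refine hF _ (fun σ hσ hint hσi => ?_) ρ hρ ((irredF_gens hγ ρ).1 hi)
  rw [hs σ hσ]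
  exact hf σ hσ (intOn_of_gens hγ hσ.1 hint) ((irredF_gens hγ σ).2 hσi)

/-- The homomorphism into the special linear group. -/
def slHom (ρ : G →* Mat r ℂ) (h : ∀ g, (ρ g).det = 1) : G →* SpecialLinearGroup (Fin r) ℂ where
  toFun g := ⟨ρ g, h g⟩
  map_one' := Subtype.ext (map_one ρ)
  map_mul' a b := Subtype.ext (map_mul ρ a b)

theorem repK_of_surf {n s : ℕ} {K : Fin s → Mat r ℂ} {ρ : Surf n s →* Mat r ℂ}
    (hρ : SLRep (surfMark n s) K ρ) :
    RepK K ((((fun i => ρ (PresentedGroup.of (Sum.inl (Sum.inl i)))),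
      fun i => ρ (PresentedGroup.of (Sum.inl (Sum.inr i)))), fun j => ρ (surfMark n s j)) :
        PTup n s r) := by
  refine ⟨⟨fun i => hρ.1 _, fun i => hρ.1 _⟩, hρ.2, ?_⟩
  have h := prodP_mapCX (((fun i => slHom ρ hρ.1 (PresentedGroup.of (Sum.inl (Sum.inl i)))),
    fun i => slHom ρ hρ.1 (PresentedGroup.of (Sum.inl (Sum.inr i)))),
      fun j => slHom ρ hρ.1 (surfMark n s j))
  rw [surf_relation (slHom ρ hρ.1), map_one] at h
  exact h

theorem exists_surf_rep {n s : ℕ} {K : Fin s → Mat r ℂ} (hK : ∀ j, (K j).det = 1)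
    {q : PTup n s r} (hq : RepK K q) :
    ∃ ρ : Surf n s →* Mat r ℂ, SLRep (surfMark n s) K ρ ∧
      ∀ x, ρ (PresentedGroup.of x) = famP q x := by
  obtain ⟨p, rfl⟩ := exists_lift hq.1 (det_puncture hK hq.2.1)
  have hrel : relG p.1 * (List.ofFn p.2).prod = 1 := Subtype.ext <| by
    have h := hq.2.2
    rw [prodP_mapCX] at h
    exact h
  let θ := surfLift (Sum.elim (Sum.elim p.1.1 p.1.2) p.2) hrel
  refine ⟨(slCoe r ℂ).comp θ, ⟨fun g => (θ g).2, fun j => ?_⟩, fun x => ?_⟩
  · obtain ⟨S, hS, e⟩ := hq.2.1 j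
    refine ⟨S, hS, ?_⟩
    rw [← e]
    simp [θ, surfLift, surfMark, mapCX, slCoe]
  · rcases x with (i | i) | j <;> simp [θ, surfLift, famP, fam, mapCX, mapTup, slCoe]

theorem surf_gen (n s : ℕ) :
    Subgroup.closure (Set.range (PresentedGroup.of (rels := ({surfRel n s} : Set _)))) = ⊤ :=
  PresentedGroup.closure_range_of _

/-- Identification of coordinates. -/
def varIdx (n s r : ℕ) : ((Fin n ⊕ Fin n) ⊕ Fin s) × Fin r × Fin r → VarP n s r := fun v =>
  Sum.elim (Sum.elim (fun i => Sum.inl (Sum.inl (i, v.2))) fun i => Sum.inl (Sum.inr (i, v.2)))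
    (fun j => Sum.inr (j, v.2)) v.1

theorem coordsP_varIdx {n s : ℕ} (q : PTup n s r) (v : ((Fin n ⊕ Fin n) ⊕ Fin s) × Fin r × Fin r) :
    coordsP q (varIdx n s r v) = famP q v.1 v.2.1 v.2.2 := by
  rcases v with ⟨(i | i) | j, p⟩ <;> rfl

theorem genCoord_surf {n s : ℕ} {ρ : Surf n s →* Mat r ℂ} {q : PTup n s r}
    (hq : ∀ x, ρ (PresentedGroup.of x) = famP q x) :
    genCoord (PresentedGroup.of (rels := ({surfRel n s} : Set _))) ρ = coordsP q ∘ varIdx n s r := by
  funext v
  rw [Function.comp_apply, coordsP_varIdx, genCoord, hq]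

theorem nice_surf_punct (g s : ℕ) : Nice (surfMark (g + 3) s) := by
  refine ⟨exists_surf_chars _ _, dens_of_gens (surf_gen _ _) fun r hr K hq hK => ?_⟩
  obtain ⟨m, rfl⟩ : ∃ m, r = m + 2 := ⟨r - 2, by omega⟩
  obtain ⟨L, hL, H, hH, hHi, hirr⟩ := exists_integral_base g K hK hq
  refine ⟨L, hL, fun F hF ρ hρ hi => ?_⟩
  set q : PTup (g + 3) s (m + 2) := (((fun i => ρ (PresentedGroup.of (Sum.inl (Sum.inl i)))),
      fun i => ρ (PresentedGroup.of (Sum.inl (Sum.inr i)))), fun j => ρ (surfMark (g + 3) s j))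
  have hfam : ∀ x, ρ (PresentedGroup.of x) = famP q x := by rintro ((i | i) | j) <;> rfl
  have hfam' : IrredF (famP q) := by rwa [← funext hfam]
  rw [genCoord_surf hfam, ← eval_rename]
  refine eval_eq_zero_of_schurP hK hH hHi hirr (fun x hx hxi hxr => ?_) (repK_of_surf hρ)
    (schurF_of_irredF hfam')
  obtain ⟨σ, hσ, hσx⟩ := exists_surf_rep hK hx
  rw [eval_rename, ← genCoord_surf hσx]
  exact hF σ hσ (fun v => by rw [genCoord_surf hσx]; exact hxi _) (by rw [funext hσx]; exact hxr)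

theorem intOn_cast {n : ℕ} (q : Tup n (Mat r ℤ)) (v : Var n r) :
    coords (castC q) v ∈ (⊥ : IntermediateField ℚ ℂ) ∧ IsIntegral ℤ (coords (castC q) v) := by
  rcases v with v | v <;>
    refine ⟨?_, ?_⟩ <;>
    first
      | exact intCast_mem _ _
      | exact isIntegral_algebraMap

theorem nice_surf_closed (g : ℕ) : Nice (surfMark (g + 2) 0) := by
  refine ⟨exists_surf_chars _ _, dens_of_gens (surf_gen _ _) fun r hr K _ hK => ?_⟩
  obtain ⟨m, rfl⟩ : ∃ m, r = m + 2 := ⟨r - 2, by omega⟩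
  refine ⟨⊥, inferInstance, fun F hF ρ hρ hi => ?_⟩
  set q : PTup (g + 2) 0 (m + 2) := (((fun i => ρ (PresentedGroup.of (Sum.inl (Sum.inl i)))),
      fun i => ρ (PresentedGroup.of (Sum.inl (Sum.inr i)))), fun j => ρ (surfMark (g + 2) 0 j))
  have hfam : ∀ x, ρ (PresentedGroup.of x) = famP q x := by rintro ((i | i) | j) <;> rfl
  have hfam' : IrredF (famP q) := by rwa [← funext hfam]
  obtain ⟨h, hh0, hh⟩ := exists_irred_test q hfam'
  have hq := repK_of_surf hρ
  have hrel : prodC q.1 = 1 := by simpa [prodP] using hq.2.2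
  let c : VarP (g + 2) 0 (m + 2) → Var (g + 2) (m + 2) := Sum.elim id fun v => v.1.elim0
  have hc : ∀ x : PTup (g + 2) 0 (m + 2), coords x.1 ∘ c = coordsP x := fun x => by
    funext v; rcases v with v | v
    · rfl
    · exact v.1.elim0
  rw [genCoord_surf hfam, ← eval_rename]
  suffices eval (coords q.1) (rename c (rename (varIdx _ _ _) F * h)) = 0 by
    rw [eval_rename, hc, map_mul] at this
    exact (mul_eq_zero.1 this).resolve_right hh0
  refine mem_zset_of_schur (isRep_of_pRep ⟨good_of_detOne hq.1, hrel⟩ hq.1) (fun Y hY => ?_) _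
    fun p hp => ?_
  · refine schurF_of_irredF hfam' Y ?_
    rintro (j | j)
    exacts [hY j, j.elim0]
  let x : PTup (g + 2) 0 (m + 2) := (castC p, Fin.elim0)
  change eval (coords x.1) _ = 0
  rw [eval_rename, hc, map_mul, eval_rename]
  by_cases h0 : eval (coordsP x) h = 0
  · rw [h0, mul_zero]
  have hrep : RepK K x := by
    refine ⟨det_castC p hp.1, fun j => j.elim0, ?_⟩
    change prodC (castC p) * (List.ofFn x.2).prod = 1
    rw [prodC_eq_rel (det_castC p hp.1)]
    have e := rel_map (Int.castRingHom ℂ).mapMatrix.toMonoidHom adjugate adjugate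
      (fun a => (Int.castRingHom ℂ).map_adjugate a) p
    rw [hp.2, map_one] at e
    rw [show rel adjugate (castC p) = 1 from e]
    simp
  obtain ⟨σ, hσ, hσx⟩ := exists_surf_rep hK hrep
  rw [← genCoord_surf hσx, hF σ hσ (fun v => ?_) (by rw [funext hσx]; exact hh x h0), zero_mul]
  rw [genCoord_surf hσx, Function.comp_apply, ← hc]
  exact intOn_cast p _

theorem nice_free (d : ℕ) : Nice (freeMark d) := by
  refine ⟨exists_free_chars _, dens_of_gens (FreeGroup.closure_range_of (α := Fin d))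
    fun r hr K _ _ => ?_⟩
  refine ⟨⊥, inferInstance, fun F hF ρ hρ hi => ?_⟩
  let A : Fin d → Mat r ℂ := fun i => ρ (FreeGroup.of i)
  let ext' : (Fin d → Mat r ℂ) → PTup d 0 r := fun B => (locus B, Fin.elim0)
  have hirr : ∀ B : Fin d → Mat r ℂ, IrredF B → IrredF (famP (ext' B)) := fun B hB => by
    refine eq_top_iff.2 (hB.symm.le.trans (Algebra.adjoin_mono ?_))
    rintro _ ⟨i, rfl⟩
    exact ⟨Sum.inl (Sum.inl i), rfl⟩
  have hirr' : ∀ B : Fin d → Mat r ℂ, IrredF (famP (ext' B)) → IrredF B := fun B hB => by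
    refine eq_top_iff.2 (hB.symm.le.trans (Algebra.adjoin_le ?_))
    rintro _ ⟨(i | i) | j, rfl⟩
    · exact Algebra.subset_adjoin ⟨i, rfl⟩
    · change (1 : Mat r ℂ) ∈ _
      exact one_mem _
    · exact j.elim0
  obtain ⟨h, hh0, hh⟩ := exists_irred_test (ext' A) (hirr A hi)
  let sb : VarP d 0 r → MvPolynomial (Var d r) ℂ := Sum.elim
    (Sum.elim (fun v => X (Sum.inl v)) fun v => C ((1 : Mat r ℂ) v.2.1 v.2.2)) fun v => v.1.elim0
  let F' : MvPolynomial (Var d r) ℂ :=
    rename (fun v : Fin d × Fin r × Fin r => (Sum.inl v : Var d r)) F * bind₁ sb h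
  have hev : ∀ p : Tup d (Mat r ℂ), eval (coords p) F' =
      eval (fun v : Fin d × Fin r × Fin r => p.1 v.1 v.2.1 v.2.2) F *
        eval (coordsP (ext' p.1)) h := fun p => by
    rw [map_mul, eval_rename, eval_subst]
    congr 1
    congr 2
    funext v
    rcases v with (v | v) | v
    · simp [sb, coordsP, coords, ext', locus]
    · simp [sb, coordsP, coords, ext', locus]
    · exact v.1.elim0
  have hA : locus A ∈ Zset d r :=
    zset_locus_of_mem A fun i => mem_transGroup _ (hρ.1 _)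
  have h0 : eval (coords (locus A)) F' = 0 := by
    refine hA _ fun p hp => ?_
    rw [hev]
    by_cases h0 : eval (coordsP (ext' (castC p).1)) h = 0
    · rw [h0, mul_zero]
    let w : Fin d → SpecialLinearGroup (Fin r) ℂ := fun i =>
      ⟨(castC p).1 i, (det_castC p hp.1).1 i⟩
    let θ : FreeGroup (Fin d) →* SpecialLinearGroup (Fin r) ℂ := FreeGroup.lift w
    let σ : FreeGroup (Fin d) →* Mat r ℂ := (slCoe r ℂ).comp θ
    have hθ : ∀ i, θ (FreeGroup.of i) = w i := fun i => FreeGroup.lift_apply_of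
    have hσ : ∀ i, σ (FreeGroup.of i) = (castC p).1 i := fun i => congrArg Subtype.val (hθ i)
    have hz := hF σ ⟨fun g => (θ g).2, fun j => j.elim0⟩ (fun v => ?_) ?_
    · rw [show (fun v : Fin d × Fin r × Fin r => (castC p).1 v.1 v.2.1 v.2.2) =
        genCoord FreeGroup.of σ from funext fun v => by rw [genCoord, hσ], hz, zero_mul]
    · rw [genCoord, hσ]
      exact intOn_cast p (Sum.inl v)
    · rw [funext hσ]
      exact hirr' _ (hh _ h0)
  rw [hev] at h0
  exact (mul_eq_zero.1 h0).resolve_right hh0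

end Vale.Agent.P002
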