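import Vale.Agent.P002.Punct.Main
import Vale.Agent.P002.Full.Blocks
import Mathlib.LinearAlgebra.Matrix.Kronecker

/-!
Irreducible families of matrices: Burnside's theorem, tensor products, and the decomposition of an
irreducible family made of two commuting families.
-/

namespace Vale.Agent.P002

open Matrix
open scoped Kronecker

variable {r : ℕ} {ι κ : Type*}

/-- No proper invariant subspace. -/
def SimpF (h : ι → Mat r ℂ) : Prop :=
  ∀ W : Submodule ℂ (Fin r → ℂ), (∀ j, ∀ v ∈ W, h j *ᵥ v ∈ W) → W = ⊥ ∨ W = ⊤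

theorem schurF_of_simpF {h : ι → Mat r ℂ} (hs : SimpF h) : SchurF h := by
  intro Y hY
  rcases Nat.eq_zero_or_pos r with rfl | hr
  · exact ⟨0, Subsingleton.elim _ _⟩
  have : Nonempty (Fin r) := ⟨⟨0, hr⟩⟩
  obtain ⟨μ, hμ⟩ := Module.End.exists_eigenvalue (Matrix.toLin' Y)
  set W := Module.End.eigenspace (Matrix.toLin' Y) μ with hW
  have hmem : ∀ v, v ∈ W ↔ Y *ᵥ v = μ • v := fun v => by
    rw [hW, Module.End.mem_eigenspace_iff, Matrix.toLin'_apply]
  rcases hs W fun j v hv => by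
      rw [hmem] at hv ⊢
      rw [mulVec_mulVec, hY j, ← mulVec_mulVec, hv, mulVec_smul] with h' | h'
  · exact absurd h' hμ
  · refine ⟨μ, Matrix.toLin'.injective (LinearMap.ext fun v => ?_)⟩
    have hv := (hmem v).1 (h' ▸ Submodule.mem_top)
    rw [Matrix.toLin'_apply, hv, Matrix.toLin'_apply, smul_mulVec, one_mulVec]

theorem simpF_of_schurF {h : ι → Mat r ℂ} (hs : SchurF h) (hss : SemisimpleF h) : SimpF h := by
  intro W hW
  obtain ⟨W', hW', hc⟩ := hss W hW
  let p : (Fin r → ℂ) →ₗ[ℂ] (Fin r → ℂ) := Submodule.projection W W' hc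
  have hp : ∀ j v, p (h j *ᵥ v) = h j *ᵥ p v := fun j v => by
    have hv : v ∈ W ⊔ W' := hc.sup_eq_top ▸ Submodule.mem_top
    obtain ⟨w, hw, w', hw', rfl⟩ := Submodule.mem_sup.1 hv
    rw [mulVec_add, map_add, map_add,
      Submodule.projection_apply_left hc ⟨_, hW j w hw⟩,
      Submodule.projection_apply_left hc ⟨w, hw⟩,
      (Submodule.projection_apply_eq_zero_iff hc).2 (hW' j w' hw'),
      (Submodule.projection_apply_eq_zero_iff hc).2 hw']
    simp
  obtain ⟨c, hc'⟩ := hs (LinearMap.toMatrix' p) fun j => by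
    refine Matrix.toLin'.injective (LinearMap.ext fun v => ?_)
    simp only [Matrix.toLin'_mul, Matrix.toLin'_toMatrix', LinearMap.comp_apply,
      Matrix.toLin'_apply]
    exact hp j v
  have hpv : ∀ v, p v = c • v := fun v => by
    rw [← Matrix.toLin'_toMatrix' p, hc', Matrix.toLin'_apply, smul_mulVec, one_mulVec]
  rcases eq_or_ne c 0 with rfl | hc0
  · left
    rw [Submodule.eq_bot_iff]
    intro w hw
    have := Submodule.projection_apply_left hc ⟨w, hw⟩
    rw [show Submodule.projection W W' hc w = p w from rfl, hpv, zero_smul] at this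
    exact this.symm
  · right
    rw [Submodule.eq_top_iff']
    intro v
    have hm : p v ∈ W := Submodule.projection_apply_mem hc v
    rw [hpv] at hm
    simpa [smul_smul, hc0] using W.smul_mem c⁻¹ hm

theorem simpF_of_irredF {h : ι → Mat r ℂ} (hi : IrredF h) : SimpF h := by
  intro W hW
  have hall : ∀ M : Mat r ℂ, ∀ v ∈ W, M *ᵥ v ∈ W := fun M => by
    have hM : M ∈ Algebra.adjoin ℂ (Set.range h) := by rw [hi]; trivial
    induction hM using Algebra.adjoin_induction with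
    | mem Z hZ => obtain ⟨i, rfl⟩ := hZ; exact hW i
    | algebraMap a =>
      intro v hv
      rw [Algebra.algebraMap_eq_smul_one, smul_mulVec, one_mulVec]
      exact W.smul_mem a hv
    | add _ _ _ _ ha hb =>
      intro v hv
      rw [add_mulVec]
      exact W.add_mem (ha v hv) (hb v hv)
    | mul a b _ _ ha hb =>
      intro v hv
      rw [← mulVec_mulVec]
      exact ha _ (hb v hv)
  by_cases hb : W = ⊥
  · exact Or.inl hb
  obtain ⟨w, hw, hw0⟩ := Submodule.exists_mem_ne_zero_of_ne_bot hb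
  obtain ⟨i, hi0⟩ := Function.ne_iff.1 hw0
  refine Or.inr (Submodule.eq_top_iff'.2 fun v => ?_)
  have : (Matrix.of fun a b => if b = i then v a / w i else 0) *ᵥ w = v := by
    funext a
    simp [mulVec, dotProduct, ite_mul, div_mul_cancel₀ _ hi0]
  rw [← this]
  exact hall _ w hw

/-- Burnside's theorem. -/
theorem irredF_of_simpF {h : ι → Mat r ℂ} (hs : SimpF h) : IrredF h := by
  rcases Nat.eq_zero_or_pos r with rfl | hr
  · exact Algebra.eq_top_iff.2 fun M => by
      rw [Subsingleton.elim M 0]; exact zero_mem _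
  have : Nonempty (Fin r) := ⟨⟨0, hr⟩⟩
  set A : Subalgebra ℂ (Module.End ℂ (Fin r → ℂ)) :=
    Algebra.adjoin ℂ (Set.range fun j => Matrix.toLinAlgEquiv' (h j)) with hA
  have hgen : ∀ j, Matrix.toLinAlgEquiv' (h j) ∈ A := fun j => Algebra.subset_adjoin ⟨j, rfl⟩
  have htower : IsScalarTower ℂ A (Fin r → ℂ) := ⟨fun _ _ _ => rfl⟩
  have hsimple : IsSimpleModule A (Fin r → ℂ) := by
    refine { eq_bot_or_eq_top := fun N => ?_ }
    rcases hs (N.restrictScalars ℂ) fun j v hv => by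
        have := N.smul_mem ⟨_, hgen j⟩ hv
        simpa [Subalgebra.smul_def, Matrix.toLinAlgEquiv'_apply] using this with h' | h'
    · exact Or.inl ((Submodule.restrictScalars_eq_bot_iff ℂ A _).1 h')
    · exact Or.inr ((Submodule.restrictScalars_eq_top_iff ℂ A _).1 h')
  have hend : ∀ φ : Module.End A (Fin r → ℂ), ∃ c : ℂ, ∀ v, φ v = c • v := fun φ => by
    obtain ⟨c, hc⟩ := schurF_of_simpF hs (LinearMap.toMatrix' (φ.restrictScalars ℂ)) fun j => by
      refine Matrix.toLin'.injective (LinearMap.ext fun v => ?_)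
      simp only [Matrix.toLin'_mul, Matrix.toLin'_toMatrix', LinearMap.comp_apply,
        Matrix.toLin'_apply, LinearMap.coe_restrictScalars]
      have := φ.map_smul ⟨_, hgen j⟩ v
      simpa [Subalgebra.smul_def, Matrix.toLinAlgEquiv'_apply] using this
    refine ⟨c, fun v => ?_⟩
    rw [show φ v = (φ.restrictScalars ℂ) v from rfl, ← Matrix.toLin'_toMatrix'
      (φ.restrictScalars ℂ), hc, Matrix.toLin'_apply, smul_mulVec, one_mulVec]
  have hfin : Module.Finite (Module.End A (Fin r → ℂ)) (Fin r → ℂ) :=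
    Module.Finite.of_restrictScalars_finite ℂ _ _
  refine Algebra.eq_top_iff.2 fun M => ?_
  let f : Module.End (Module.End A (Fin r → ℂ)) (Fin r → ℂ) :=
    { toFun := fun v => M *ᵥ v
      map_add' := fun v w => mulVec_add M v w
      map_smul' := fun φ v => by
        obtain ⟨c, hc⟩ := hend φ
        simp only [RingHom.id_apply, Module.End.smul_def, hc, mulVec_smul] }
  obtain ⟨a, ha⟩ := Module.Finite.toModuleEnd_moduleEnd_surjective
    (R := A) (M := (Fin r → ℂ)) f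
  have e : Matrix.toLinAlgEquiv' M = (a : Module.End ℂ (Fin r → ℂ)) := by
    refine LinearMap.ext fun v => ?_
    have := congrFun (congrArg DFunLike.coe ha) v
    simp [f, Subalgebra.smul_def] at this
    rw [Matrix.toLinAlgEquiv'_apply]
    exact this.symm
  have hmap : A = (Algebra.adjoin ℂ (Set.range h)).map (Matrix.toLinAlgEquiv' :
      Mat r ℂ ≃ₐ[ℂ] Module.End ℂ (Fin r → ℂ)).toAlgHom := by
    rw [AlgHom.map_adjoin, ← Set.range_comp]
    rfl
  have hmem : Matrix.toLinAlgEquiv' M ∈ (Algebra.adjoin ℂ (Set.range h)).map (Matrix.toLinAlgEquiv' :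
      Mat r ℂ ≃ₐ[ℂ] Module.End ℂ (Fin r → ℂ)).toAlgHom := by
    rw [← hmap, e]; exact a.2
  obtain ⟨N, hN, eN⟩ := hmem
  rwa [← Matrix.toLinAlgEquiv'.injective eN]

section Tensor

variable {a b : ℕ} (e : Fin a × Fin b ≃ Fin r)

/-- The tensor product of two square matrices. -/
def kr (M : Mat a ℂ) (N : Mat b ℂ) : Mat r ℂ := Matrix.reindex e e (M ⊗ₖ N)

theorem kr_apply (M : Mat a ℂ) (N : Mat b ℂ) (p q : Fin r) :
    kr e M N p q = M (e.symm p).1 (e.symm q).1 * N (e.symm p).2 (e.symm q).2 := rfl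

theorem kr_mul (M M' : Mat a ℂ) (N N' : Mat b ℂ) :
    kr e M N * kr e M' N' = kr e (M * M') (N * N') := by
  simp [kr, submatrix_mul_equiv, mul_kronecker_mul]

theorem kr_one : kr e (1 : Mat a ℂ) (1 : Mat b ℂ) = 1 := by
  simp [kr, one_kronecker_one]

theorem kr_det (M : Mat a ℂ) (N : Mat b ℂ) : (kr e M N).det = M.det ^ b * N.det ^ a := by
  rw [kr, det_reindex_self, det_kronecker]
  simp

theorem kr_smul (c d : ℂ) (M : Mat a ℂ) (N : Mat b ℂ) :
    kr e (c • M) (d • N) = (c * d) • kr e M N := by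
  ext p q
  simp [kr_apply]
  ring

theorem kr_inv {M : Mat a ℂ} (hM : IsUnit M.det) {N : Mat b ℂ} (hN : IsUnit N.det) :
    (kr e M N)⁻¹ = kr e M⁻¹ N⁻¹ := by
  refine inv_eq_right_inv ?_
  rw [kr_mul, mul_nonsing_inv M hM, mul_nonsing_inv N hN, kr_one]

/-- Tensoring by the identity as an algebra map. -/
def krLeft : Mat a ℂ →ₐ[ℂ] Mat r ℂ where
  toFun M := kr e M 1
  map_one' := kr_one e
  map_mul' M N := by rw [kr_mul, one_mul]
  map_zero' := by ext p q; simp [kr_apply]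
  map_add' M N := by ext p q; simp [kr_apply, add_mul]
  commutes' c := by
    rw [Algebra.algebraMap_eq_smul_one, Algebra.algebraMap_eq_smul_one, ← kr_one e]
    ext p q; simp [kr_apply, mul_assoc]

/-- Tensoring by the identity on the left as an algebra map. -/
def krRight : Mat b ℂ →ₐ[ℂ] Mat r ℂ where
  toFun N := kr e 1 N
  map_one' := kr_one e
  map_mul' M N := by rw [kr_mul, one_mul]
  map_zero' := by ext p q; simp [kr_apply]
  map_add' M N := by ext p q; simp [kr_apply, mul_add]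
  commutes' c := by
    rw [Algebra.algebraMap_eq_smul_one, Algebra.algebraMap_eq_smul_one, ← kr_one e]
    ext p q; simp [kr_apply]; ring

theorem irredF_kr {σ : ι → Mat a ℂ} {τ : κ → Mat b ℂ} (hσ : IrredF σ) (hτ : IrredF τ)
    {μ : Type*} (h : μ → Mat r ℂ) (h₁ : ∀ i, ∃ m, h m = kr e (σ i) 1)
    (h₂ : ∀ k, ∃ m, h m = kr e 1 (τ k)) : IrredF h := by
  have hL : ∀ M, kr e M 1 ∈ Algebra.adjoin ℂ (Set.range h) := fun M => by
    have : (Algebra.adjoin ℂ (Set.range σ)).map (krLeft e) ≤ Algebra.adjoin ℂ (Set.range h) := by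
      rw [AlgHom.map_adjoin, Algebra.adjoin_le_iff]
      rintro _ ⟨_, ⟨i, rfl⟩, rfl⟩
      obtain ⟨m, hm⟩ := h₁ i
      exact Algebra.subset_adjoin ⟨m, hm⟩
    exact this ⟨M, by rw [hσ]; trivial, rfl⟩
  have hR : ∀ N, kr e 1 N ∈ Algebra.adjoin ℂ (Set.range h) := fun N => by
    have : (Algebra.adjoin ℂ (Set.range τ)).map (krRight e) ≤ Algebra.adjoin ℂ (Set.range h) := by
      rw [AlgHom.map_adjoin, Algebra.adjoin_le_iff]
      rintro _ ⟨_, ⟨k, rfl⟩, rfl⟩
      obtain ⟨m, hm⟩ := h₂ k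
      exact Algebra.subset_adjoin ⟨m, hm⟩
    exact this ⟨N, by rw [hτ]; trivial, rfl⟩
  refine Algebra.eq_top_iff.2 fun M => ?_
  rw [matrix_eq_sum_single M]
  refine sum_mem fun p _ => sum_mem fun q _ => ?_
  have : single p q (M p q) = M p q •
      (kr e (single (e.symm p).1 (e.symm q).1 1) 1 *
        kr e 1 (single (e.symm p).2 (e.symm q).2 1)) := by
    rw [kr_mul, mul_one, one_mul]
    ext u v
    rw [Matrix.smul_apply, kr_apply, single_apply, single_apply, single_apply, smul_eq_mul]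
    by_cases hu : p = u <;> by_cases hv : q = v
    · subst hu; subst hv; simp
    all_goals
      rw [if_neg (by tauto)]
      have : ¬ ((e.symm p).1 = (e.symm u).1 ∧ (e.symm q).1 = (e.symm v).1) ∨
          ¬ ((e.symm p).2 = (e.symm u).2 ∧ (e.symm q).2 = (e.symm v).2) := by
        by_contra hh
        push Not at hh
        first
          | exact hu (e.symm.injective (Prod.ext hh.1.1 hh.2.1))
          | exact hv (e.symm.injective (Prod.ext hh.1.2 hh.2.2))
      rcases this with h' | h' <;> simp [if_neg h']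
  rw [this]
  exact Subalgebra.smul_mem _ (mul_mem (hL _) (hR _)) _

end Tensor

/-- A smallest invariant subspace gives an irreducible family intertwined with the given one. -/
theorem exists_min_sub (h : ι → Mat r ℂ) (hr : 0 < r) :
    ∃ (a : ℕ) (σ : ι → Mat a ℂ) (φ : (Fin a → ℂ) →ₗ[ℂ] (Fin r → ℂ)), 0 < a ∧
      Function.Injective φ ∧ SimpF σ ∧ ∀ i v, h i *ᵥ φ v = φ (σ i *ᵥ v) := by
  classical
  have : Nonempty (Fin r) := ⟨⟨0, hr⟩⟩
  have hex : ∃ d, ∃ W : Submodule ℂ (Fin r → ℂ), (∀ i, ∀ v ∈ W, h i *ᵥ v ∈ W) ∧ W ≠ ⊥ ∧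
      Module.finrank ℂ W = d := ⟨_, ⊤, fun _ _ _ => Submodule.mem_top, top_ne_bot, rfl⟩
  obtain ⟨W, hW, hW0, ha⟩ := Nat.find_spec hex
  set a := Nat.find hex
  let bW : Module.Basis (Fin a) ℂ W := Module.finBasisOfFinrankEq ℂ W ha
  let φ : (Fin a → ℂ) →ₗ[ℂ] (Fin r → ℂ) := W.subtype.comp bW.equivFun.symm.toLinearMap
  have hφ : Function.Injective φ := W.injective_subtype.comp bW.equivFun.symm.injective
  let σ : ι → Mat a ℂ := fun i => LinearMap.toMatrix'
    (bW.equivFun.toLinearMap ∘ₗ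
      ((Matrix.toLin' (h i)).restrict fun v hv => by simpa using hW i v hv) ∘ₗ
      bW.equivFun.symm.toLinearMap)
  have hσ : ∀ i v, h i *ᵥ φ v = φ (σ i *ᵥ v) := fun i v => by
    simp [σ, φ, ← Matrix.toLin'_apply, Matrix.toLin'_toMatrix']
  refine ⟨a, σ, φ, ?_, hφ, fun U hU => ?_, hσ⟩
  · rw [← ha, Nat.pos_iff_ne_zero, Ne, Submodule.finrank_eq_zero]
    exact hW0
  by_cases hU0 : U = ⊥
  · exact Or.inl hU0
  refine Or.inr (Submodule.eq_top_of_finrank_eq ?_)
  have e := (Submodule.equivMapOfInjective φ hφ U).finrank_eq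
  rw [Module.finrank_fin_fun]
  refine le_antisymm ((Submodule.finrank_le U).trans (Module.finrank_fin_fun (R := ℂ)).le) ?_
  rw [e]
  refine Nat.find_le ⟨U.map φ, fun i v hv => ?_, ?_, rfl⟩
  · obtain ⟨w, hw, rfl⟩ := Submodule.mem_map.1 hv
    exact Submodule.mem_map.2 ⟨_, hU i w hw, (hσ i w).symm⟩
  · intro h0
    refine hU0 ((Submodule.eq_bot_iff _).2 fun x hx => hφ ?_)
    rw [map_zero]
    exact (Submodule.eq_bot_iff _).1 h0 _ (Submodule.mem_map_of_mem hx)

variable {a b : ℕ} {σ : ι → Mat a ℂ}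

/-- Independent intertwiners from an irreducible family are jointly injective. -/
theorem injective_intertwine (hσi : IrredF σ) (h : ι → Mat r ℂ)
    (ψ : Fin b → (Fin a → ℂ) →ₗ[ℂ] (Fin r → ℂ)) (hψ : LinearIndependent ℂ ψ)
    (hψσ : ∀ k i v, h i *ᵥ ψ k v = ψ k (σ i *ᵥ v)) {w : Fin b → Fin a → ℂ}
    (hw : ∑ k, ψ k (w k) = 0) : w = 0 := by
  have hall : ∀ M : Mat a ℂ, ∀ w : Fin b → Fin a → ℂ, ∑ k, ψ k (w k) = 0 →
      ∑ k, ψ k (M *ᵥ w k) = 0 := fun M => by
    have hM : M ∈ Algebra.adjoin ℂ (Set.range σ) := by rw [hσi]; trivial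
    induction hM using Algebra.adjoin_induction with
    | mem Z hZ =>
      obtain ⟨i, rfl⟩ := hZ
      intro w hw
      simp only [← hψσ]
      rw [← Matrix.mulVec_sum, hw, mulVec_zero]
    | algebraMap c =>
      intro w hw
      simp only [Algebra.algebraMap_eq_smul_one, smul_mulVec, one_mulVec, map_smul]
      rw [← Finset.smul_sum, hw, smul_zero]
    | add P Q _ _ hP hQ =>
      intro w hw
      simp only [add_mulVec, map_add]
      rw [Finset.sum_add_distrib, hP w hw, hQ w hw, add_zero]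
    | mul P Q _ _ hP hQ =>
      intro w hw
      simp only [← mulVec_mulVec]
      exact hP _ (hQ w hw)
  funext k₀ i₀
  refine Fintype.linearIndependent_iff.1 hψ (fun k => w k i₀) ?_ k₀
  refine LinearMap.ext fun v => ?_
  have := hall (Matrix.of fun l m => if m = i₀ then v l else 0) w hw
  rw [LinearMap.zero_apply, ← this]
  simp only [LinearMap.sum_apply, LinearMap.smul_apply]
  refine Finset.sum_congr rfl fun k _ => ?_
  rw [← map_smul]
  congr 1
  funext l
  simp [mulVec, dotProduct, ite_mul, mul_comm]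

variable (e : Fin a × Fin b ≃ Fin r)

theorem kr_one_mulVec (M : Mat a ℂ) (x : Fin r → ℂ) (i : Fin a) (k : Fin b) :
    (kr e M 1 *ᵥ x) (e (i, k)) = (M *ᵥ fun l => x (e (l, k))) i := by
  simp only [mulVec, dotProduct]
  rw [← e.sum_comp, Fintype.sum_prod_type]
  simp [kr_apply, one_apply, ite_mul]

theorem one_kr_mulVec (N : Mat b ℂ) (x : Fin r → ℂ) (i : Fin a) :
    (fun k => (kr e 1 N *ᵥ x) (e (i, k))) = N *ᵥ fun l => x (e (i, l)) := by
  funext k
  simp only [mulVec, dotProduct]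
  rw [← e.sum_comp, Fintype.sum_prod_type]
  simp [kr_apply, one_apply, ite_mul]

/-- What commutes with the left factor of a tensor product lies in the right factor. -/
theorem exists_right (hapos : 0 < a) (hσi : IrredF σ) {Z : Mat r ℂ}
    (hZ : ∀ i, Z * kr e (σ i) 1 = kr e (σ i) 1 * Z) : ∃ N : Mat b ℂ, Z = kr e 1 N := by
  have hZc : ∀ M, Z * kr e M 1 = kr e M 1 * Z := fun M => by
    have hM : M ∈ Algebra.adjoin ℂ (Set.range σ) := by rw [hσi]; trivial
    change Z * krLeft e M = krLeft e M * Z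
    induction hM using Algebra.adjoin_induction with
    | mem N hN =>
      obtain ⟨i, rfl⟩ := hN
      exact hZ i
    | algebraMap c => rw [AlgHom.commutes]; exact (Algebra.commutes c Z).symm
    | add P Q _ _ hP hQ => rw [map_add, mul_add, add_mul, hP, hQ]
    | mul P Q _ _ hP hQ => rw [map_mul, ← mul_assoc, hP, mul_assoc, hQ, mul_assoc]
  let i₁ : Fin a := ⟨0, hapos⟩
  refine ⟨Matrix.of fun p q => Z (e (i₁, p)) (e (i₁, q)), ?_⟩
  ext p q
  obtain ⟨⟨i, l⟩, rfl⟩ := e.surjective p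
  obtain ⟨⟨j, m⟩, rfl⟩ := e.surjective q
  have h := congrFun (congrFun (hZc (single j i₁ 1)) (e (i, l))) (e (i₁, m))
  simp only [Matrix.mul_apply, kr_apply, single_apply, one_apply] at h
  rw [← e.sum_comp, ← e.sum_comp, Fintype.sum_prod_type, Fintype.sum_prod_type] at h
  simp [ite_and, ite_mul] at h
  rw [h]
  by_cases hij : i = j
  · subst hij; simp [kr_apply, one_apply]
  · simp [kr_apply, hij, Ne.symm hij]

/-- The right factor of an irreducible tensor product is irreducible. -/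
theorem simpF_right (hapos : 0 < a) {τ : κ → Mat b ℂ}
    (hs : SimpF (Sum.elim (fun i => kr e (σ i) 1) fun k => kr e 1 (τ k))) : SimpF τ := by
  intro U hU
  let i₁ : Fin a := ⟨0, hapos⟩
  let U' : Submodule ℂ (Fin r → ℂ) := ⨅ i : Fin a,
    U.comap (LinearMap.funLeft ℂ ℂ fun k => e (i, k))
  have hU' : ∀ x, x ∈ U' ↔ ∀ i, (fun k => x (e (i, k))) ∈ U := fun x => by
    simp [U', Submodule.mem_iInf, LinearMap.funLeft, Function.comp_def]
  rcases hs U' (fun j x hx => by
      rw [hU'] at hx ⊢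
      intro l
      rcases j with i | k
      · have e' : (fun k => (kr e (σ i) 1 *ᵥ x) (e (l, k))) =
            ∑ m, σ i l m • fun k => x (e (m, k)) := by
          funext k
          rw [kr_one_mulVec]
          simp [mulVec, dotProduct, Finset.sum_apply]
        change (fun k => (kr e (σ i) 1 *ᵥ x) (e (l, k))) ∈ U
        rw [e']
        exact U.sum_mem fun m _ => U.smul_mem _ (hx m)
      · change (fun m => (kr e 1 (τ k) *ᵥ x) (e (l, m))) ∈ U
        rw [one_kr_mulVec]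
        exact hU k _ (hx l)) with h0 | h0
  · left
    rw [Submodule.eq_bot_iff]
    intro u hu
    have hx : (fun p => u (e.symm p).2) ∈ U' := (hU' _).2 fun i => by simpa using hu
    funext k
    simpa using congrFun ((Submodule.eq_bot_iff _).1 h0 _ hx) (e (i₁, k))
  · right
    rw [Submodule.eq_top_iff']
    intro u
    simpa using (hU' fun p => u (e.symm p).2).1 (h0 ▸ Submodule.mem_top) i₁

theorem simpF_conj {h h' : ι → Mat r ℂ} {S : Mat r ℂ} (hS : IsUnit S.det)
    (hh : ∀ i, h i * S = S * h' i) (hs : SimpF h) : SimpF h' := by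
  intro U hU
  have hinj : Function.Injective (Matrix.toLin' S) :=
    fun x y hxy => Matrix.mulVec_injective_iff_isUnit.2 ((isUnit_iff_isUnit_det S).2 hS) hxy
  rcases hs (U.map (Matrix.toLin' S)) (fun i v hv => by
      obtain ⟨u, hu, rfl⟩ := Submodule.mem_map.1 hv
      refine Submodule.mem_map.2 ⟨_, hU i u hu, ?_⟩
      simp only [Matrix.toLin'_apply, mulVec_mulVec, hh]) with h0 | h0
  · refine Or.inl ((Submodule.eq_bot_iff _).2 fun u hu => hinj ?_)
    rw [map_zero]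
    exact (Submodule.eq_bot_iff _).1 h0 _ (Submodule.mem_map_of_mem hu)
  · refine Or.inr (Submodule.eq_top_iff'.2 fun u => ?_)
    obtain ⟨v, hv, e'⟩ := Submodule.mem_map.1 (h0 ▸ Submodule.mem_top : Matrix.toLin' S u ∈ _)
    exact hinj e' ▸ hv

/-- The basis change from jointly injective intertwiners with full image. -/
theorem exists_basis_change (h : ι → Mat r ℂ) (Φ : (Fin b → Fin a → ℂ) ≃ₗ[ℂ] (Fin r → ℂ))
    (hΦ : ∀ i w, h i *ᵥ Φ w = Φ fun k => σ i *ᵥ w k) :
    ∃ (e : Fin a × Fin b ≃ Fin r) (S : Mat r ℂ), IsUnit S.det ∧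
      ∀ i, h i * S = S * kr e (σ i) 1 := by
  have hab : a * b = r := by
    have := Φ.finrank_eq
    rw [Module.finrank_pi_fintype] at this
    simpa [mul_comm] using this
  let e : Fin a × Fin b ≃ Fin r := finProdFinEquiv.trans (finCongr hab)
  let Θ : (Fin r → ℂ) ≃ₗ[ℂ] (Fin r → ℂ) :=
    ((LinearEquiv.funCongrLeft ℂ ℂ e).trans
      ((LinearEquiv.funCongrLeft ℂ ℂ (Equiv.prodComm (Fin b) (Fin a))).trans
        (LinearEquiv.curry ℂ ℂ (Fin b) (Fin a)))).trans Φ
  have hΘ : ∀ x, Θ x = Φ fun k i => x (e (i, k)) := fun x => rfl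
  refine ⟨e, LinearMap.toMatrix' Θ.toLinearMap, ?_, fun i => ?_⟩
  · have := LinearEquiv.isUnit_det' Θ
    rwa [← LinearMap.det_toMatrix'] at this
  refine Matrix.toLin'.injective (LinearMap.ext fun x => ?_)
  simp only [Matrix.toLin'_mul, Matrix.toLin'_toMatrix', LinearMap.comp_apply,
    LinearEquiv.coe_coe, Matrix.toLin'_apply, hΘ, hΦ]
  congr 1
  funext k l
  exact (kr_one_mulVec e (σ i) x l k).symm

/-- The intertwiners from a smallest family assemble to an isomorphism. -/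
theorem exists_intertwine_equiv (h₁ : ι → Mat r ℂ) (h₂ : κ → Mat r ℂ)
    (hcomm : ∀ i k, h₁ i * h₂ k = h₂ k * h₁ i) (hs : SimpF (Sum.elim h₁ h₂))
    (hσi : IrredF σ) (φ : (Fin a → ℂ) →ₗ[ℂ] (Fin r → ℂ)) (ha : 0 < a)
    (hφ : Function.Injective φ) (hσ : ∀ i v, h₁ i *ᵥ φ v = φ (σ i *ᵥ v)) :
    ∃ (b : ℕ) (Φ : (Fin b → Fin a → ℂ) ≃ₗ[ℂ] (Fin r → ℂ)),
      ∀ i w, h₁ i *ᵥ Φ w = Φ fun k => σ i *ᵥ w k := by
  obtain ⟨c, hcH, hspan, hli⟩ := exists_linearIndependent ℂ
    {ξ : (Fin a → ℂ) →ₗ[ℂ] (Fin r → ℂ) | ∀ i v, h₁ i *ᵥ ξ v = ξ (σ i *ᵥ v)}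
  have hfd : FiniteDimensional ℂ ((Fin a → ℂ) →ₗ[ℂ] (Fin r → ℂ)) :=
    Module.Finite.linearMap ℂ ℂ (Fin a → ℂ) (Fin r → ℂ)
  let b := hli.setFinite.toFinset.card
  let eq : Fin b ≃ hli.setFinite.toFinset := hli.setFinite.toFinset.equivFin.symm
  let ψ : Fin b → (Fin a → ℂ) →ₗ[ℂ] (Fin r → ℂ) := fun k => (eq k).1
  have hψc : ∀ k, ψ k ∈ c := fun k => hli.setFinite.mem_toFinset.1 (eq k).2
  have hψ : LinearIndependent ℂ ψ :=
    hli.comp (fun k => (⟨ψ k, hψc k⟩ : c)) fun k l hkl => by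
      exact eq.injective (Subtype.ext (congrArg Subtype.val hkl :))
  have hψσ : ∀ k i v, h₁ i *ᵥ ψ k v = ψ k (σ i *ᵥ v) := fun k => hcH (hψc k)
  let Φ : (Fin b → Fin a → ℂ) →ₗ[ℂ] (Fin r → ℂ) := ∑ k, ψ k ∘ₗ LinearMap.proj k
  have hΦ : ∀ w, Φ w = ∑ k, ψ k (w k) := fun w => by simp [Φ]
  have hrange : ∀ ξ : (Fin a → ℂ) →ₗ[ℂ] (Fin r → ℂ),
      (∀ i v, h₁ i *ᵥ ξ v = ξ (σ i *ᵥ v)) → ∀ v, ξ v ∈ LinearMap.range Φ := fun ξ hξ v => by
    have hmem : ξ ∈ Submodule.span ℂ c := by rw [hspan]; exact Submodule.subset_span hξ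
    have hle : Submodule.span ℂ c ≤ (LinearMap.range Φ).comap (LinearMap.applyₗ v) := by
      rw [Submodule.span_le]
      intro η hη
      obtain ⟨k, hk⟩ := eq.surjective ⟨η, hli.setFinite.mem_toFinset.2 hη⟩
      refine ⟨Pi.single k v, ?_⟩
      rw [hΦ, Finset.sum_eq_single k (fun l _ hl => by simp [Pi.single_eq_of_ne hl]) (by simp),
        Pi.single_eq_same]
      simp [ψ, hk]
    exact hle hmem
  have hΦσ : ∀ i w, h₁ i *ᵥ Φ w = Φ fun k => σ i *ᵥ w k := fun i w => by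
    rw [hΦ, hΦ, Matrix.mulVec_sum]
    simp only [hψσ]
  have hinj : Function.Injective Φ := (injective_iff_map_eq_zero Φ).2 fun w hw =>
    injective_intertwine hσi h₁ ψ hψ hψσ (by rw [← hΦ, hw])
  have hsurj : Function.Surjective Φ := by
    rw [← LinearMap.range_eq_top]
    refine (hs _ ?_).resolve_left fun h0 => ?_
    · rintro (i | k) v ⟨w, rfl⟩
      · exact ⟨_, (hΦσ i w).symm⟩
      · change h₂ k *ᵥ Φ w ∈ _
        rw [hΦ, Matrix.mulVec_sum]
        refine Submodule.sum_mem _ fun l _ => ?_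
        exact hrange (Matrix.toLin' (h₂ k) ∘ₗ ψ l) (fun i v => by
          simp only [LinearMap.comp_apply, Matrix.toLin'_apply]
          rw [mulVec_mulVec, hcomm, ← mulVec_mulVec, hψσ]) (w l)
    · have e := hrange φ hσ (Pi.single ⟨0, ha⟩ 1)
      rw [h0, Submodule.mem_bot] at e
      have := congrFun (hφ (e.trans (map_zero φ).symm)) ⟨0, ha⟩
      simp at this
  exact ⟨b, LinearEquiv.ofBijective Φ ⟨hinj, hsurj⟩, hΦσ⟩

/-- An irreducible family made of two commuting families is a tensor product. -/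
theorem exists_tensor (h₁ : ι → Mat r ℂ) (h₂ : κ → Mat r ℂ) (hr : 0 < r)
    (hcomm : ∀ i k, h₁ i * h₂ k = h₂ k * h₁ i) (hs : SimpF (Sum.elim h₁ h₂)) :
    ∃ (a b : ℕ) (e : Fin a × Fin b ≃ Fin r) (S : Mat r ℂ) (σ : ι → Mat a ℂ) (τ : κ → Mat b ℂ),
      0 < a ∧ 0 < b ∧ IsUnit S.det ∧ IrredF σ ∧ IrredF τ ∧
      (∀ i, h₁ i * S = S * kr e (σ i) 1) ∧ ∀ k, h₂ k * S = S * kr e 1 (τ k) := by
  obtain ⟨a, σ, φ, ha, hφ, hσs, hσ⟩ := exists_min_sub h₁ hr
  have hσi := irredF_of_simpF hσs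
  obtain ⟨b, Φ, hΦσ⟩ := exists_intertwine_equiv h₁ h₂ hcomm hs hσi φ ha hφ hσ
  obtain ⟨e, S, hS, h1⟩ := exists_basis_change h₁ Φ hΦσ
  have hb : 0 < b := by
    refine Nat.pos_of_ne_zero fun h0 => ?_
    have := e.symm ⟨0, hr⟩
    rw [h0] at this
    exact this.2.elim0
  have hZ : ∀ k, h₂ k * S = S * (S⁻¹ * h₂ k * S) := fun k => by
    simp only [← mul_assoc, mul_nonsing_inv S hS, one_mul]
  have hright : ∀ k, ∃ N : Mat b ℂ, S⁻¹ * h₂ k * S = kr e 1 N := fun k => by
    refine exists_right e ha hσi fun i => ((isUnit_iff_isUnit_det S).2 hS).mul_left_cancel ?_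
    rw [← mul_assoc, ← hZ, mul_assoc, ← h1, ← mul_assoc, ← hcomm, mul_assoc, hZ, ← mul_assoc,
      h1, mul_assoc]
  choose τ hτ using hright
  have h2 : ∀ k, h₂ k * S = S * kr e 1 (τ k) := fun k => by rw [hZ, hτ]
  refine ⟨a, b, e, S, σ, τ, ha, hb, hS, hσi, irredF_of_simpF ?_, h1, h2⟩
  refine simpF_right (σ := σ) e ha (simpF_conj hS ?_ hs)
  rintro (i | k)
  · exact h1 i
  · exact h2 k

end Vale.Agent.P002
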