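import Vale.Agent.P002.Prod.Leaves

/-!
Products of surface groups and free groups are nice.
-/

namespace Vale.Agent.P002

open Matrix MvPolynomial

theorem nice_products {k l : ℕ} (n s : Fin k → ℕ) (hns : ∀ i, 3 ≤ n i ∨ (2 ≤ n i ∧ s i = 0))
    (d : Fin l → ℕ) :
    Nice (prodMark (piMark fun i => surfMark (n i) (s i)) (piMark fun j => freeMark (d j))) := by
  refine (Nice.pi _ fun i => ?_).prod (Nice.pi _ fun j => nice_free (d j))
  rcases hns i with h | ⟨h, h0⟩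
  · obtain ⟨g, hg⟩ : ∃ g, n i = g + 3 := ⟨n i - 3, by omega⟩
    rw [hg]
    exact nice_surf_punct g (s i)
  · obtain ⟨g, hg⟩ : ∃ g, n i = g + 2 := ⟨n i - 2, by omega⟩
    rw [hg, h0]
    exact nice_surf_closed g

/-- Rescale a conjugating matrix to determinant one. -/
theorem exists_sl_scale {r : ℕ} (hr : 0 < r) {S : Mat r ℂ} (hS : IsUnit S.det) :
    ∃ T : SpecialLinearGroup (Fin r) ℂ, ∀ M : Mat r ℂ, T.1 * M * (T⁻¹).1 = S * M * S⁻¹ := by
  obtain ⟨c, hc⟩ := IsAlgClosed.exists_pow_nat_eq (S.det)⁻¹ hr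
  have hS0 : S.det ≠ 0 := hS.ne_zero
  have hc0 : c ≠ 0 := fun h => by
    rw [h, zero_pow hr.ne', eq_comm, inv_eq_zero] at hc
    exact hS0 hc
  have hd : (c • S).det = 1 := by
    rw [det_smul, Fintype.card_fin, hc, inv_mul_cancel₀ hS0]
  refine ⟨⟨c • S, hd⟩, fun M => ?_⟩
  change c • S * M * adjugate (c • S) = _
  rw [← adjugate_eq_inv hd, inv_smul_mat hc0 hS0, Matrix.smul_mul, Matrix.mul_smul, Matrix.smul_mul,
    smul_smul, inv_mul_cancel₀ hc0, one_smul]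

/-- A representation with prescribed classes and trivial determinant on the free directions has
determinant one. -/
theorem det_eq_one {G J : Type} [Group G] {μ : J → G} (C : Chars μ) {r : ℕ}
    {K : J → SpecialLinearGroup (Fin r) ℂ} {σ : G →* Mat r ℂ}
    (hσ : HRep C (fun j => (K j).1) σ) (g : G) : (σ g).det = 1 := by
  have : detH σ = 1 := C.char_ext (fun e => by simpa [detH_apply] using hσ.2 e) fun j => by
    obtain ⟨S, hS, e⟩ := hσ.1 j
    rw [detH_apply, e, det_conj_of hS]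
    exact (K j).2
  exact DFunLike.congr_fun this g

theorem class_slHom {G J : Type} [Group G] {μ : J → G} (C : Chars μ) {r : ℕ} (hr : 0 < r)
    {K : J → SpecialLinearGroup (Fin r) ℂ} {σ : G →* Mat r ℂ}
    (hσ : HRep C (fun j => (K j).1) σ) (j : J) :
    ∃ T, slHom σ (det_eq_one C hσ) (μ j) = T * K j * T⁻¹ := by
  obtain ⟨S, hS, e⟩ := hσ.1 j
  obtain ⟨T, hT⟩ := exists_sl_scale hr hS
  exact ⟨T, Subtype.ext (e.trans (hT _).symm)⟩

theorem hRep_coe {G J : Type} [Group G] {μ : J → G} (C : Chars μ) {r : ℕ}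
    {K : J → SpecialLinearGroup (Fin r) ℂ} {ρ : G →* SpecialLinearGroup (Fin r) ℂ}
    (hρ : ∀ j, ∃ T, ρ (μ j) = T * K j * T⁻¹) :
    HRep C (fun j => (K j).1) ((slCoe r ℂ).comp ρ) := by
  refine ⟨fun j => ?_, fun e => (ρ (C.h e)).2⟩
  obtain ⟨T, hT⟩ := hρ j
  refine ⟨T.1, by rw [T.2]; exact isUnit_one, ?_⟩
  rw [MonoidHom.comp_apply, hT]
  exact congrArg (fun M => T.1 * (K j).1 * M) (adjugate_eq_inv T.2).symm

theorem eval_intertwine {G J : Type} [Group G] {μ : J → G} (C : Chars μ) {r : ℕ} (hr : 0 < r)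
    {K : J → SpecialLinearGroup (Fin r) ℂ} {f : MvPolynomial (RVar G r) ℂ}
    (hinv : ∀ ρ : G →* SpecialLinearGroup (Fin r) ℂ, (∀ j, ∃ T, ρ (μ j) = T * K j * T⁻¹) →
      ∀ T : SpecialLinearGroup (Fin r) ℂ,
        eval (fun v => (T * ρ v.1 * T⁻¹).1 v.2.1 v.2.2) f =
          eval (fun v => (ρ v.1).1 v.2.1 v.2.2) f) :
    InvF (HRep C fun j => (K j).1) f := by
  intro σ σ' S hσ _ hS hSσ
  obtain ⟨T, hT⟩ := exists_sl_scale hr hS
  have h := hinv (slHom σ (det_eq_one C hσ)) (class_slHom C hr hσ) T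
  have e1 : ev σ' = fun v => (T * slHom σ (det_eq_one C hσ) v.1 * T⁻¹).1 v.2.1 v.2.2 := by
    funext v
    change σ' v.1 v.2.1 v.2.2 = (T.1 * σ v.1 * (T⁻¹).1) v.2.1 v.2.2
    rw [hT, ← hSσ, mul_nonsing_inv_cancel_right _ _ hS]
  rw [e1]
  exact h

/-- Density at all semisimple representations, for representations into the special linear
group. -/
theorem sl_density {G J : Type} [Group G] [Finite J] {μ : J → G} (h : Nice μ) {r : ℕ}
    (hr : 0 < r) (K : J → SpecialLinearGroup (Fin r) ℂ) (hK : ∀ j, QUni (K j).1) :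
    ∃ L : IntermediateField ℚ ℂ, FiniteDimensional ℚ L ∧
      ∀ f : MvPolynomial (RVar G r) ℂ,
      (∀ ρ : G →* SpecialLinearGroup (Fin r) ℂ,
        (∀ j, ∃ T, ρ (μ j) = T * K j * T⁻¹) →
        (∀ g i k, (ρ g).1 i k ∈ L ∧ IsIntegral ℤ ((ρ g).1 i k)) →
        SemisimpleF (fun g => (ρ g).1) → eval (fun v => (ρ v.1).1 v.2.1 v.2.2) f = 0) →
      (∀ ρ : G →* SpecialLinearGroup (Fin r) ℂ, (∀ j, ∃ T, ρ (μ j) = T * K j * T⁻¹) →
        ∀ T : SpecialLinearGroup (Fin r) ℂ,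
          eval (fun v => (T * ρ v.1 * T⁻¹).1 v.2.1 v.2.2) f =
            eval (fun v => (ρ v.1).1 v.2.1 v.2.2) f) →
      ∀ ρ : G →* SpecialLinearGroup (Fin r) ℂ, (∀ j, ∃ T, ρ (μ j) = T * K j * T⁻¹) →
        SemisimpleF (fun g => (ρ g).1) → eval (fun v => (ρ v.1).1 v.2.1 v.2.2) f = 0 := by
  obtain ⟨C⟩ := h.1
  obtain ⟨L, hL, hd⟩ := exists_sDens C h.2 r hr (fun j => (K j).1) hK
  refine ⟨L, hL, fun f hf hinv ρ hρ hss => ?_⟩
  exact hd f (eval_intertwine C hr hinv) (fun σ hσ hint hs =>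
    hf (slHom σ (det_eq_one C hσ)) (class_slHom C hr hσ) (fun g i k => hint (g, i, k)) hs)
    ((slCoe r ℂ).comp ρ) (hRep_coe C hρ) hss

end Vale.Agent.P002
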