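import Vale.Agent.P002.Prod.Semi

/-!
Density and the description of characters pass to products of groups.
-/

namespace Vale.Agent.P002

open Matrix MvPolynomial

variable {G H : Type} [Group G] [Group H] {J I : Type} {r : ℕ}

/-- The marked elements of a product. -/
def prodMark (μ : J → G) (ν : I → H) : J ⊕ I → G × H :=
  Sum.elim (fun j => (μ j, 1)) fun i => (1, ν i)

/-- The characters of a product. -/
def Chars.prod {μ : J → G} {ν : I → H} (C : Chars μ) (D : Chars ν) : Chars (prodMark μ ν) where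
  E := C.E ⊕ D.E
  h := Sum.elim (fun e => (C.h e, 1)) fun e => (1, D.h e)
  π g := Sum.elim (C.π g.1) (D.π g.2)
  π_mul a b := by
    funext e
    rcases e with e | e <;> simp [C.π_mul, D.π_mul]
  π_mark := by
    have h1 : C.π 1 = 0 := by simpa using C.π_mul 1 1
    have h2 : D.π 1 = 0 := by simpa using D.π_mul 1 1
    rintro (j | j) (e | e) <;> simp [prodMark, C.π_mark, D.π_mark, h1, h2]
  π_gen := by
    rintro (e | e) <;> simp [C.π_gen, D.π_gen]
  π_off := by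
    have h1 : C.π 1 = 0 := by simpa using C.π_mul 1 1
    have h2 : D.π 1 = 0 := by simpa using D.π_mul 1 1
    rintro (e | e) (e' | e') hne <;> simp_all [C.π_off, D.π_off]
  gen := by
    set S := Subgroup.closure (Set.range (Sum.elim (fun e => ((C.h e, 1) : G × H))
      fun e => (1, D.h e)) ∪ Set.range (prodMark μ ν)) with hS
    have hl : ∀ g : G, ((g, 1) : G × H) ∈ S := fun g => by
      have : (⊤ : Subgroup G) ≤ S.comap (MonoidHom.inl G H) := by
        rw [← C.gen, Subgroup.closure_le]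
        rintro _ (⟨e, rfl⟩ | ⟨j, rfl⟩)
        · exact Subgroup.subset_closure (Or.inl ⟨Sum.inl e, rfl⟩)
        · exact Subgroup.subset_closure (Or.inr ⟨Sum.inl j, rfl⟩)
      exact this (Subgroup.mem_top g)
    have hr : ∀ g : H, ((1, g) : G × H) ∈ S := fun g => by
      have : (⊤ : Subgroup H) ≤ S.comap (MonoidHom.inr G H) := by
        rw [← D.gen, Subgroup.closure_le]
        rintro _ (⟨e, rfl⟩ | ⟨j, rfl⟩)
        · exact Subgroup.subset_closure (Or.inl ⟨Sum.inr e, rfl⟩)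
        · exact Subgroup.subset_closure (Or.inr ⟨Sum.inr j, rfl⟩)
      exact this (Subgroup.mem_top g)
    refine eq_top_iff.2 fun g _ => ?_
    have : g = (g.1, 1) * (1, g.2) := by simp
    rw [this]
    exact mul_mem (hl _) (hr _)
  root χ n hn hμ := by
    obtain ⟨ψ, hψ⟩ := C.root (χ.comp (MonoidHom.inl G H)) n hn fun j => hμ (Sum.inl j)
    obtain ⟨φ, hφ⟩ := D.root (χ.comp (MonoidHom.inr G H)) n hn fun i => hμ (Sum.inr i)
    refine ⟨MonoidHom.coprod ψ φ, fun g => ?_⟩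
    rw [MonoidHom.coprod_apply, mul_pow, hψ, hφ, MonoidHom.comp_apply, MonoidHom.comp_apply,
      ← map_mul]
    simp

theorem kr_left_inj {a b : ℕ} (hb : 0 < b) (e : Fin a × Fin b ≃ Fin r) {M M' : Mat a ℂ}
    (h : kr e M (1 : Mat b ℂ) = kr e M' 1) : M = M' := by
  ext i k
  have := congrFun (congrFun h (e (i, ⟨0, hb⟩))) (e (k, ⟨0, hb⟩))
  simpa [kr_apply, one_apply] using this

theorem kr_right_inj {a b : ℕ} (ha : 0 < a) (e : Fin a × Fin b ≃ Fin r) {N N' : Mat b ℂ}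
    (h : kr e (1 : Mat a ℂ) N = kr e 1 N') : N = N' := by
  ext i k
  have := congrFun (congrFun h (e (⟨0, ha⟩, i))) (e (⟨0, ha⟩, k))
  simpa [kr_apply, one_apply] using this

theorem rootN_left {a b N : ℕ} (hb : 0 < b) (e : Fin a × Fin b ≃ Fin r) {A : Mat a ℂ}
    (h : RootN N (kr e A (1 : Mat b ℂ))) : RootN N A := by
  refine h.of_intertwine
    { toFun := fun x p => x (e.symm p).1 * (if (e.symm p).2 = ⟨0, hb⟩ then 1 else 0)
      map_add' := fun x y => by funext p; dsimp; split_ifs <;> simp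
      map_smul' := fun c x => by funext p; simp [mul_assoc] } (fun x y hxy => ?_) fun v => ?_
  · funext i
    simpa using congrFun hxy (e (i, ⟨0, hb⟩))
  · funext p
    obtain ⟨⟨i, k⟩, rfl⟩ := e.surjective p
    rw [kr_one_mulVec]
    simp [mulVec, dotProduct, Finset.sum_mul, mul_assoc]

theorem rootN_right {a b N : ℕ} (ha : 0 < a) (e : Fin a × Fin b ≃ Fin r) {B : Mat b ℂ}
    (h : RootN N (kr e (1 : Mat a ℂ) B)) : RootN N B := by
  refine h.of_intertwine
    { toFun := fun x p => x (e.symm p).2 * (if (e.symm p).1 = ⟨0, ha⟩ then 1 else 0)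
      map_add' := fun x y => by funext p; dsimp; split_ifs <;> simp
      map_smul' := fun c x => by funext p; simp [mul_assoc] } (fun x y hxy => ?_) fun v => ?_
  · funext i
    simpa using congrFun hxy (e (⟨0, ha⟩, i))
  · funext p
    obtain ⟨⟨i, k⟩, rfl⟩ := e.surjective p
    refine (congrFun (one_kr_mulVec e B _ i) k).trans ?_
    simp [mulVec, dotProduct, Finset.sum_mul, mul_assoc]

theorem isUnit_kr {a b : ℕ} (e : Fin a × Fin b ≃ Fin r) {A : Mat a ℂ} (hA : IsUnit A.det)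
    {B : Mat b ℂ} (hB : IsUnit B.det) : IsUnit (kr e A B).det := by
  rw [kr_det]; exact (hA.pow b).mul (hB.pow a)

/-- The tensor product of two representations. -/
def tensH {a b : ℕ} (e : Fin a × Fin b ≃ Fin r) (σ : G →* Mat a ℂ) (τ : H →* Mat b ℂ) :
    G × H →* Mat r ℂ where
  toFun g := kr e (σ g.1) (τ g.2)
  map_one' := by simp [kr_one]
  map_mul' g g' := by simp [kr_mul]

theorem tensH_apply {a b : ℕ} (e : Fin a × Fin b ≃ Fin r) (σ : G →* Mat a ℂ) (τ : H →* Mat b ℂ)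
    (g : G × H) : tensH e σ τ g = kr e (σ g.1) (τ g.2) := rfl

/-- A factor of an irreducible representation of a product, normalised to determinant one. -/
theorem exists_normal {μ : J → G} (C : Chars μ) {a b N : ℕ} (ha : 0 < a) (hb : 0 < b)
    (hN : a * b ∣ N) (σ : G →* Mat a ℂ) (hdet : ∀ g, (σ g).det ^ b = 1)
    (hroot : ∀ j, RootN N (σ (μ j))) :
    ∃ (ψ : G →* ℂ) (σ' : G →* Mat a ℂ) (t : Ty J a N), (∀ g, ψ g ^ (a * b) = 1) ∧
      scaleH ψ σ' = σ ∧ SLRep μ (tyMat t) σ' := by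
  obtain ⟨ψ, hψ⟩ := C.root (detH σ) a ha fun j => ⟨b, hb, hdet _⟩
  have hψN : ∀ g, ψ g ^ (a * b) = 1 := fun g => by rw [pow_mul, hψ, detH_apply, hdet]
  let ψ' : G →* ℂ :=
    { toFun := fun g => (ψ g)⁻¹
      map_one' := by simp
      map_mul' := fun x y => by rw [map_mul, mul_inv] }
  obtain ⟨t, ht⟩ := exists_ty (K := fun j => scaleH ψ' σ (μ j)) (N := N) fun j => by
    obtain ⟨q, rfl⟩ := hN
    exact (hroot j).smul (by rw [show ψ' (μ j) = (ψ (μ j))⁻¹ from rfl, inv_pow, pow_mul, hψN,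
      one_pow, inv_one]) (inv_ne_zero (char_ne_zero ψ _))
  refine ⟨ψ, scaleH ψ' σ, t, hψN, MonoidHom.ext fun g => ?_, fun g => ?_, fun j => ?_⟩
  · simp [scaleH_apply, ψ', smul_smul, char_ne_zero ψ g]
  · change ((ψ g)⁻¹ • σ g).det = 1
    rw [det_smul, Fintype.card_fin, inv_pow, hψ, detH_apply]
    exact inv_mul_cancel₀ (char_ne_zero (detH σ) g)
  · exact ht j

theorem irredF_scale_inv {μ : J → G} {a : ℕ} {ψ : G →* ℂ} {σ σ' : G →* Mat a ℂ}
    (h : scaleH ψ σ' = σ) (hi : IrredF σ) {K : J → Mat a ℂ} (_hs : SLRep μ K σ') : IrredF σ' := by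
  have e : (σ' : G → Mat a ℂ) = fun g => (ψ g)⁻¹ • σ g := funext fun g => by
    rw [← h, scaleH_apply, smul_smul, inv_mul_cancel₀ (char_ne_zero ψ g), one_smul]
  rw [e]
  exact irredF_smul (fun g => inv_ne_zero (char_ne_zero ψ g)) hi

/-- Density passes to products. -/
theorem Dens.prod [Finite J] [Finite I] {μ : J → G} {ν : I → H} (C : Chars μ) (D : Chars ν)
    (hμ : Dens μ) (hν : Dens ν) : Dens (prodMark μ ν) := by
  intro r hr K hK
  obtain ⟨N₀, hN₀, hKN₀⟩ := exists_rootN hK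
  set N := r * N₀ with hNdef
  have hN : 0 < N := Nat.mul_pos hr hN₀
  have : NeZero N := ⟨hN.ne'⟩
  have hsub : ∀ x : Σ a : {a : Fin (r + 1) // 0 < (a : ℕ)}, Ty J (a.1 : ℕ) N,
      ∃ L : IntermediateField ℚ ℂ, FiniteDimensional ℚ L ∧
        ∀ f, InvF (SLRep μ (tyMat x.2)) f →
          (∀ σ, SLRep μ (tyMat x.2) σ → IntOn L σ → IrredF σ → eval (ev σ) f = 0) →
          ∀ σ, SLRep μ (tyMat x.2) σ → IrredF σ → eval (ev σ) f = 0 :=
    fun x => hμ _ x.1.2 _ (qUni_tyMat hN _)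
  have hsub' : ∀ x : Σ a : {a : Fin (r + 1) // 0 < (a : ℕ)}, Ty I (a.1 : ℕ) N,
      ∃ L : IntermediateField ℚ ℂ, FiniteDimensional ℚ L ∧
        ∀ f, InvF (SLRep ν (tyMat x.2)) f →
          (∀ σ, SLRep ν (tyMat x.2) σ → IntOn L σ → IrredF σ → eval (ev σ) f = 0) →
          ∀ σ, SLRep ν (tyMat x.2) σ → IrredF σ → eval (ev σ) f = 0 :=
    fun x => hν _ x.1.2 _ (qUni_tyMat hN _)
  choose LG hLGfd hLG using hsub
  choose LH hLHfd hLH using hsub'
  classical
  obtain ⟨L, hL, hle, hmem⟩ := exists_field (Sum.elim LG LH)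
    (fun i => by rcases i with i | i; exacts [hLGfd i, hLHfd i])
    (Polynomial.nthRootsFinset N (1 : ℂ)) (fun z hz => IsIntegral.of_pow hN
      (by rw [(Polynomial.mem_nthRootsFinset hN _).1 hz]; exact isIntegral_one))
  have hroots : ∀ z : ℂ, z ^ N = 1 → z ∈ L := fun z hz =>
    hmem z ((Polynomial.mem_nthRootsFinset hN _).2 hz)
  refine ⟨L, hL, fun f hinv hf ρ hρ hi => ?_⟩
  let h₁ : G → Mat r ℂ := fun g => ρ (g, 1)
  let h₂ : H → Mat r ℂ := fun g => ρ (1, g)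
  obtain ⟨a, b, e, S, σ, τ, ha, hb, hS, hσi, hτi, h1, h2⟩ := exists_tensor h₁ h₂ hr
    (fun g g' => by simp [h₁, h₂, ← map_mul]) (fun W hW => (simpF_of_irredF hi) W fun g v hv => by
      have e : ρ g = h₁ g.1 * h₂ g.2 := by simp [h₁, h₂, ← map_mul]
      rw [e, ← mulVec_mulVec]
      exact hW (Sum.inl g.1) _ (hW (Sum.inr g.2) v hv))
  have hab : a * b = r := by simpa using Fintype.card_congr e
  have hSu : IsUnit S := (isUnit_iff_isUnit_det S).2 hS
  have hσ1 : σ 1 = 1 := kr_left_inj hb e <| hSu.mul_left_cancel <| by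
    rw [← h1, kr_one, mul_one, show h₁ 1 = ρ 1 from rfl, map_one, one_mul]
  have hσm : ∀ g g', σ (g * g') = σ g * σ g' := fun g g' => kr_left_inj hb e <|
    hSu.mul_left_cancel <| by
      rw [← h1, show h₁ (g * g') = h₁ g * h₁ g' by simp [h₁, ← map_mul], mul_assoc, h1, ← mul_assoc,
        h1, mul_assoc, kr_mul, mul_one]
  have hτ1 : τ 1 = 1 := kr_right_inj ha e <| hSu.mul_left_cancel <| by
    rw [← h2, kr_one, mul_one, show h₂ 1 = ρ 1 from rfl, map_one, one_mul]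
  have hτm : ∀ g g', τ (g * g') = τ g * τ g' := fun g g' => kr_right_inj ha e <|
    hSu.mul_left_cancel <| by
      rw [← h2, show h₂ (g * g') = h₂ g * h₂ g' by simp [h₂, ← map_mul], mul_assoc, h2, ← mul_assoc,
        h2, mul_assoc, kr_mul, mul_one]
  let σh : G →* Mat a ℂ := ⟨⟨σ, hσ1⟩, hσm⟩
  let τh : H →* Mat b ℂ := ⟨⟨τ, hτ1⟩, hτm⟩
  have hc1 : ∀ g, kr e (σ g) 1 = S⁻¹ * h₁ g * S := fun g => by
    rw [mul_assoc, h1, nonsing_inv_mul_cancel_left _ _ hS]
  have hc2 : ∀ g, kr e 1 (τ g) = S⁻¹ * h₂ g * S := fun g => by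
    rw [mul_assoc, h2, nonsing_inv_mul_cancel_left _ _ hS]
  have hKn : ∀ x, RootN N (K x) := fun x => (hKN₀ x).mono (dvd_mul_left _ _)
  have hSi : IsUnit (S⁻¹).det := isUnit_nonsing_inv_det S hS
  have hrootσ : ∀ j, RootN N (σh (μ j)) := fun j => rootN_left hb e <| by
    obtain ⟨T, hT, eT⟩ := hρ.2 (Sum.inl j)
    change RootN N (kr e (σ (μ j)) 1)
    rw [hc1, show h₁ (μ j) = T * K (Sum.inl j) * T⁻¹ from eT]
    have := ((hKn (Sum.inl j)).conj hT).conj hSi
    rwa [nonsing_inv_nonsing_inv S hS] at this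
  have hrootτ : ∀ j, RootN N (τh (ν j)) := fun j => rootN_right ha e <| by
    obtain ⟨T, hT, eT⟩ := hρ.2 (Sum.inr j)
    change RootN N (kr e 1 (τ (ν j)))
    rw [hc2, show h₂ (ν j) = T * K (Sum.inr j) * T⁻¹ from eT]
    have := ((hKn (Sum.inr j)).conj hT).conj hSi
    rwa [nonsing_inv_nonsing_inv S hS] at this
  have hdσ : ∀ g, (σh g).det ^ b = 1 := fun g => by
    have := congrArg Matrix.det (hc1 g)
    rwa [kr_det, det_one, one_pow, mul_one, det_mul, det_mul, hρ.1, mul_one, det_nonsing_inv,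
      Ring.inverse_eq_inv', inv_mul_cancel₀ hS.ne_zero] at this
  have hdτ : ∀ g, (τh g).det ^ a = 1 := fun g => by
    have := congrArg Matrix.det (hc2 g)
    rwa [kr_det, det_one, one_pow, one_mul, det_mul, det_mul, hρ.1, mul_one, det_nonsing_inv,
      Ring.inverse_eq_inv', inv_mul_cancel₀ hS.ne_zero] at this
  obtain ⟨ψ, σ', t, hψ, eσ, hσ'⟩ := exists_normal C ha hb (hab ▸ dvd_mul_right r N₀) σh hdσ hrootσ
  obtain ⟨φ, τ', u, hφ, eτ, hτ'⟩ :=
    exists_normal D hb ha (by rw [mul_comm, hab]; exact dvd_mul_right r N₀) τh hdτ hrootτ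
  let χ : G × H →* ℂ := MonoidHom.coprod ψ φ
  let T : (G →* Mat a ℂ) → (H →* Mat b ℂ) → (G × H →* Mat r ℂ) :=
    fun x y => scaleH χ (tensH e x y)
  have hTS : ∀ g, ρ g * S = S * T σ' τ' g := fun g => by
    have : T σ' τ' g = kr e (σ g.1) (τ g.2) := by
      rw [show σ g.1 = σh g.1 from rfl, show τ g.2 = τh g.2 from rfl, ← eσ, ← eτ]
      simp [T, χ, scaleH_apply, tensH_apply, kr_smul]
    have e' : ρ g = h₁ g.1 * h₂ g.2 := by simp [h₁, h₂, ← map_mul]
    rw [this, e', mul_assoc, h2, ← mul_assoc, h1, mul_assoc, kr_mul, mul_one, one_mul]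
  have hclass : ∀ x y, SLRep μ (tyMat t) x → SLRep ν (tyMat u) y →
      SLRep (prodMark μ ν) K (T x y) := by
    intro x y hx hy
    refine ⟨fun g => ?_, ?_⟩
    · have h1' := hψ g.1
      have h2' := hφ g.2
      rw [hab] at h1'
      rw [mul_comm, hab] at h2'
      simp only [T, χ, scaleH_apply, tensH_apply, det_smul, Fintype.card_fin, kr_det, hx.1, hy.1,
        MonoidHom.coprod_apply, mul_pow, h1', h2', one_pow, mul_one]
    rintro (j | j)
    · obtain ⟨P, hP, eP⟩ := hx.2 j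
      obtain ⟨P', hP', eP'⟩ := hσ'.2 j
      obtain ⟨Q, hQ, eQ⟩ := hρ.2 (Sum.inl j)
      have hPP : IsUnit (P * P'⁻¹).det := by
        rw [det_mul]; exact hP.mul (isUnit_nonsing_inv_det P' hP')
      refine ⟨kr e (P * P'⁻¹) 1 * (S⁻¹ * Q), ?_, ?_⟩
      · rw [det_mul, det_mul]
        exact (isUnit_kr e hPP (by simp)).mul ((isUnit_nonsing_inv_det S hS).mul hQ)
      have ex : x (μ j) = (P * P'⁻¹) * σ' (μ j) * (P * P'⁻¹)⁻¹ := by
        rw [eP, eP', Matrix.mul_inv_rev, nonsing_inv_nonsing_inv P' hP']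
        simp only [mul_assoc, nonsing_inv_mul_cancel_left _ _ hP']
      have hT0 : S⁻¹ * (Q * K (Sum.inl j) * Q⁻¹) * S = T σ' τ' (μ j, 1) := by
        rw [← eQ, show ρ (prodMark μ ν (Sum.inl j)) = ρ (μ j, 1) from rfl, mul_assoc, hTS,
          nonsing_inv_mul_cancel_left _ _ hS]
      have hkr : T x y (μ j, 1) =
          kr e (P * P'⁻¹) 1 * T σ' τ' (μ j, 1) * kr e (P * P'⁻¹)⁻¹ 1 := by
        simp [T, scaleH_apply, tensH_apply, Matrix.mul_smul, Matrix.smul_mul, kr_mul, ex]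
      change T x y (μ j, 1) = _
      rw [hkr, ← hT0, Matrix.mul_inv_rev (kr e _ _), Matrix.mul_inv_rev S⁻¹ Q,
        nonsing_inv_nonsing_inv S hS, kr_inv e hPP (by simp), inv_one]
      simp only [mul_assoc]
    · obtain ⟨P, hP, eP⟩ := hy.2 j
      obtain ⟨P', hP', eP'⟩ := hτ'.2 j
      obtain ⟨Q, hQ, eQ⟩ := hρ.2 (Sum.inr j)
      have hPP : IsUnit (P * P'⁻¹).det := by
        rw [det_mul]; exact hP.mul (isUnit_nonsing_inv_det P' hP')
      refine ⟨kr e 1 (P * P'⁻¹) * (S⁻¹ * Q), ?_, ?_⟩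
      · rw [det_mul, det_mul]
        exact (isUnit_kr e (by simp) hPP).mul ((isUnit_nonsing_inv_det S hS).mul hQ)
      have ey : y (ν j) = (P * P'⁻¹) * τ' (ν j) * (P * P'⁻¹)⁻¹ := by
        rw [eP, eP', Matrix.mul_inv_rev, nonsing_inv_nonsing_inv P' hP']
        simp only [mul_assoc, nonsing_inv_mul_cancel_left _ _ hP']
      have hT0 : S⁻¹ * (Q * K (Sum.inr j) * Q⁻¹) * S = T σ' τ' (1, ν j) := by
        rw [← eQ, show ρ (prodMark μ ν (Sum.inr j)) = ρ (1, ν j) from rfl, mul_assoc, hTS,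
          nonsing_inv_mul_cancel_left _ _ hS]
      have hkr : T x y (1, ν j) =
          kr e 1 (P * P'⁻¹) * T σ' τ' (1, ν j) * kr e 1 (P * P'⁻¹)⁻¹ := by
        simp [T, scaleH_apply, tensH_apply, Matrix.mul_smul, Matrix.smul_mul, kr_mul, ey]
      change T x y (1, ν j) = _
      rw [hkr, ← hT0, Matrix.mul_inv_rev (kr e _ _), Matrix.mul_inv_rev S⁻¹ Q,
        nonsing_inv_nonsing_inv S hS, kr_inv e (by simp) hPP, inv_one]
      simp only [mul_assoc]
  have htw : ∀ x x' y y' P Q, (∀ g, x' g * P = P * x g) → (∀ g, y' g * Q = Q * y g) →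
      ∀ g, T x' y' g * kr e P Q = kr e P Q * T x y g := fun x x' y y' P Q hx hy g => by
    simp [T, scaleH_apply, tensH_apply, Matrix.mul_smul, Matrix.smul_mul, kr_mul, hx, hy]
  rw [hinv (T σ' τ') ρ S (hclass _ _ hσ' hτ') hρ hS hTS]
  have hat : a ≤ r ∧ b ≤ r :=
    ⟨hab ▸ Nat.le_mul_of_pos_right a hb, hab ▸ Nat.le_mul_of_pos_left b ha⟩
  let ia : {a : Fin (r + 1) // 0 < (a : ℕ)} := ⟨⟨a, Nat.lt_succ_of_le hat.1⟩, ha⟩
  let ib : {a : Fin (r + 1) // 0 < (a : ℕ)} := ⟨⟨b, Nat.lt_succ_of_le hat.2⟩, hb⟩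
  have hχL : ∀ g, χ g ∈ intRing L := fun g => by
    refine mul_mem (mem_intRing_root hN hroots ?_) (mem_intRing_root hN hroots ?_)
    · change ψ g.1 ^ N = 1
      rw [hNdef, ← hab, pow_mul, hψ, one_pow]
    · change φ g.2 ^ N = 1
      rw [hNdef, ← hab, mul_comm a b, pow_mul, hφ, one_pow]
  have step1 : ∀ y, SLRep ν (tyMat u) y → IntOn (LH ⟨ib, u⟩) y → IrredF y →
      eval (ev (T σ' y)) f = 0 := by
    intro y hy hyint hyi
    let s : RVar (G × H) r → MvPolynomial (RVar G a) ℂ := fun v =>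
      MvPolynomial.C (χ v.1 * y v.1.2 (e.symm v.2.1).2 (e.symm v.2.2).2) *
        X (v.1.1, (e.symm v.2.1).1, (e.symm v.2.2).1)
    have hs : ∀ x, eval (ev x) (bind₁ s f) = eval (ev (T x y)) f := fun x => by
      rw [eval_subst]
      congr 2
      funext v
      simp [s, ev, T, scaleH_apply, tensH_apply, kr_apply]
      ring
    rw [← hs]
    refine hLG ⟨ia, t⟩ _ (fun x x' P hx hx' hP hPx => ?_) (fun x hx hxint hxi => ?_) σ' hσ'
      (irredF_scale_inv eσ hσi hσ')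
    · rw [hs, hs]
      exact hinv _ _ (kr e P 1) (hclass _ _ hx hy) (hclass _ _ hx' hy) (isUnit_kr e hP (by simp))
        (htw _ _ _ _ P 1 hPx (by simp))
    · rw [hs]
      refine hf _ (hclass _ _ hx hy) (fun v => (mem_intRing L).1 ?_) ?_
      · change (χ v.1 • kr e (x v.1.1) (y v.1.2)) v.2.1 v.2.2 ∈ _
        rw [Matrix.smul_apply, kr_apply, smul_eq_mul]
        exact mul_mem (hχL _) (mul_mem
          (intRing_mono (hle (Sum.inl ⟨ia, t⟩)) ((mem_intRing _).2 (hxint (_, _, _))))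
          (intRing_mono (hle (Sum.inr ⟨ib, u⟩)) ((mem_intRing _).2 (hyint (_, _, _)))))
      · refine irredF_smul (fun g => char_ne_zero χ g) (irredF_kr e hxi hyi _
          (fun g => ⟨(g, 1), by simp [tensH_apply]⟩) fun g => ⟨(1, g), by simp [tensH_apply]⟩)
  let s : RVar (G × H) r → MvPolynomial (RVar H b) ℂ := fun v =>
    MvPolynomial.C (χ v.1 * σ' v.1.1 (e.symm v.2.1).1 (e.symm v.2.2).1) *
      X (v.1.2, (e.symm v.2.1).2, (e.symm v.2.2).2)
  have hs : ∀ y, eval (ev y) (bind₁ s f) = eval (ev (T σ' y)) f := fun y => by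
    rw [eval_subst]
    congr 2
    funext v
    simp [s, ev, T, scaleH_apply, tensH_apply, kr_apply]
    ring
  rw [← hs]
  refine hLH ⟨ib, u⟩ _ (fun y y' Q hy hy' hQ hQy => ?_) (fun y hy hyint hyi => ?_) τ' hτ'
    (irredF_scale_inv eτ hτi hτ')
  · rw [hs, hs]
    exact hinv _ _ (kr e 1 Q) (hclass _ _ hσ' hy) (hclass _ _ hσ' hy') (isUnit_kr e (by simp) hQ)
      (htw _ _ _ _ 1 Q (by simp) hQy)
  · rw [hs]
    exact step1 y hy hyint hyi

/-- The two properties carried through products. -/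
def Nice (μ : J → G) : Prop := Nonempty (Chars μ) ∧ Dens μ

theorem Nice.prod [Finite J] [Finite I] {μ : J → G} {ν : I → H} (h : Nice μ) (h' : Nice ν) :
    Nice (prodMark μ ν) :=
  ⟨⟨h.1.some.prod h'.1.some⟩, h.2.prod h.1.some h'.1.some h'.2⟩

theorem Nice.congr {μ : J → G} {ν : I → H} (φ : G ≃* H) (ι : J ≃ I) (hι : ∀ j, ν (ι j) = φ (μ j))
    (h : Nice μ) : Nice ν := by
  obtain ⟨C⟩ := h.1
  have hν : ∀ i, φ.symm (ν i) = μ (ι.symm i) := fun i => by
    rw [MulEquiv.symm_apply_eq, ← hι, Equiv.apply_symm_apply]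
  refine ⟨⟨{
    E := C.E
    h := fun e => φ (C.h e)
    π := fun g => C.π (φ.symm g)
    π_mul := fun a b => by rw [map_mul, C.π_mul]
    π_mark := fun i e => by rw [hν, C.π_mark]
    π_gen := fun e => by rw [φ.symm_apply_apply, C.π_gen]
    π_off := fun e e' he => by rw [φ.symm_apply_apply, C.π_off e e' he]
    gen := by
      have h1 : Subgroup.map φ.toMonoidHom (Subgroup.closure (Set.range C.h ∪ Set.range μ)) ≤
          Subgroup.closure ((Set.range fun e => φ (C.h e)) ∪ Set.range ν) := by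
        rw [MonoidHom.map_closure, Subgroup.closure_le]
        rintro _ ⟨_, (⟨e, rfl⟩ | ⟨j, rfl⟩), rfl⟩
        · exact Subgroup.subset_closure (Or.inl ⟨e, rfl⟩)
        · exact Subgroup.subset_closure (Or.inr ⟨ι j, hι j⟩)
      refine eq_top_iff.2 fun g _ => h1 ?_
      rw [C.gen]
      exact ⟨φ.symm g, Subgroup.mem_top _, φ.apply_symm_apply g⟩
    root := fun χ n hn hχ => by
      obtain ⟨ψ, hψ⟩ := C.root (χ.comp φ.toMonoidHom) n hn fun j => by
        have h0 := hχ (ι j)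
        rw [hι] at h0
        exact h0
      exact ⟨ψ.comp φ.symm.toMonoidHom, fun g => by simpa using hψ (φ.symm g)⟩ }⟩, ?_⟩
  intro r hr K hK
  obtain ⟨L, hL, hf⟩ := h.2 r hr (fun j => K (ι j)) fun j => hK _
  refine ⟨L, hL, fun f hinv hf' ρ hρ hi => ?_⟩
  let pull : (G →* Mat r ℂ) → (H →* Mat r ℂ) := fun σ => σ.comp φ.symm.toMonoidHom
  let s : RVar H r → RVar G r := fun v => (φ.symm v.1, v.2)
  have hs : ∀ σ, eval (ev σ) (rename s f) = eval (ev (pull σ)) f := fun σ => by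
    rw [eval_rename]; rfl
  have hSL : ∀ σ, SLRep μ (fun j => K (ι j)) σ → SLRep ν K (pull σ) := fun σ hσ =>
    ⟨fun g => hσ.1 _, fun i => by
      obtain ⟨S, hS, e⟩ := hσ.2 (ι.symm i)
      refine ⟨S, hS, ?_⟩
      change σ (φ.symm (ν i)) = _
      rw [hν, e]
      simp⟩
  have hrange : ∀ σ : G →* Mat r ℂ, IrredF σ → IrredF (pull σ) := fun σ hσ => by
    refine eq_top_iff.2 (hσ.symm.le.trans (Algebra.adjoin_mono ?_))
    rintro _ ⟨g, rfl⟩
    exact ⟨φ g, by simp [pull]⟩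
  have e : ρ = pull (ρ.comp φ.toMonoidHom) := MonoidHom.ext fun g => by simp [pull]
  rw [e, ← hs]
  refine hf _ (fun σ σ' S hσ hσ' hS hSσ => ?_) (fun σ hσ hint hσi => ?_) _ ⟨fun g => hρ.1 _, fun j => ?_⟩ ?_
  · rw [hs, hs]
    exact hinv _ _ S (hSL _ hσ) (hSL _ hσ') hS fun g => hSσ _
  · rw [hs]
    exact hf' _ (hSL _ hσ) (fun v => hint (φ.symm v.1, v.2)) (hrange _ hσi)
  · obtain ⟨S, hS, eS⟩ := hρ.2 (ι j)
    exact ⟨S, hS, by simpa [← hι] using eS⟩
  · refine eq_top_iff.2 (hi.symm.le.trans (Algebra.adjoin_mono ?_))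
    rintro _ ⟨g, rfl⟩
    exact ⟨φ.symm g, by simp⟩

theorem Nice.trivial [Subsingleton G] [IsEmpty J] (μ : J → G) : Nice μ := by
  refine ⟨⟨{
    E := Empty
    h := Empty.elim
    π := fun _ e => e.elim
    π_mul := fun _ _ => funext fun e => e.elim
    π_mark := fun _ e => e.elim
    π_gen := fun e => e.elim
    π_off := fun e => e.elim
    gen := eq_top_iff.2 fun g _ => by rw [Subsingleton.elim g 1]; exact one_mem _
    root := fun χ n _ _ => ⟨1, fun g => by rw [Subsingleton.elim g 1]; simp⟩ }⟩, ?_⟩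
  intro r _ K _
  refine ⟨⊥, inferInstance, fun f _ hf ρ hρ hi => hf ρ hρ (fun v => ?_) hi⟩
  rw [show ev ρ v = (1 : Mat r ℂ) v.2.1 v.2.2 by
    rw [← map_one ρ, Subsingleton.elim (1 : G) v.1]; rfl, Matrix.one_apply]
  split_ifs
  exacts [⟨one_mem _, isIntegral_one⟩, ⟨zero_mem _, isIntegral_zero⟩]

/-- The marked elements of a product of a family. -/
def piMark {k : ℕ} {G : Fin k → Type} [∀ i, Group (G i)] {J : Fin k → Type}
    (μ : ∀ i, J i → G i) (x : Σ i, J i) : ∀ i, G i := Pi.mulSingle x.1 (μ x.1 x.2)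

theorem Nice.pi : ∀ {k : ℕ} {G : Fin k → Type} [∀ i, Group (G i)] {J : Fin k → Type}
    [∀ i, Finite (J i)] (μ : ∀ i, J i → G i), (∀ i, Nice (μ i)) → Nice (piMark μ)
  | 0, G, _, J, _, μ, _ => by
    have : IsEmpty (Σ i : Fin 0, J i) := ⟨fun x => x.1.elim0⟩
    exact Nice.trivial _
  | k + 1, G, _, J, _, μ, h => by
    have h2 := (h 0).prod (Nice.pi (fun i : Fin k => μ i.succ) fun i => h i.succ)
    let φ : G 0 × (∀ i : Fin k, G i.succ) ≃* (∀ i, G i) :=
      { toEquiv := Fin.consEquiv G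
        map_mul' := fun a b => by
          funext i
          refine Fin.cases ?_ (fun i => ?_) i <;> rfl }
    let ι : J 0 ⊕ (Σ i : Fin k, J i.succ) ≃ Σ i, J i :=
      { toFun := Sum.elim (fun j => ⟨0, j⟩) fun x => ⟨x.1.succ, x.2⟩
        invFun := fun x => Fin.cases (motive := fun i => J i → J 0 ⊕ Σ i : Fin k, J i.succ)
          Sum.inl (fun i j => Sum.inr ⟨i, j⟩) x.1 x.2
        left_inv := by rintro (j | ⟨i, j⟩) <;> simp
        right_inv := by
          rintro ⟨i, j⟩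
          revert j
          refine Fin.cases ?_ (fun i => ?_) i <;> intro j <;> simp }
    refine h2.congr φ ι ?_
    rintro (j | ⟨i, j⟩) <;> funext l <;> refine Fin.cases ?_ (fun l => ?_) l
    · simp [φ, ι, prodMark, piMark, Fin.consEquiv]
    · simp [φ, ι, prodMark, piMark, Fin.consEquiv, Fin.succ_ne_zero]
    · simp [φ, ι, prodMark, piMark, Fin.consEquiv, (Fin.succ_ne_zero i).symm]
    · simp only [φ, ι, prodMark, piMark, Fin.consEquiv, Sum.elim_inr]
      by_cases hl : l = i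
      · subst hl; simp
      · simp [hl, Fin.succ_inj]

end Vale.Agent.P002
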