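import Vale.Agent.P002.Prod.Main

/-!
Marked elements of prescribed finite order instead of prescribed class, and infinite cyclic factors
marked by their generator.
-/

namespace Vale.Agent.P002

open Matrix MvPolynomial

/-- The generator of an infinite cyclic group, marked. -/
def intMark (_ : Unit) : Multiplicative ℤ := Multiplicative.ofAdd 1

theorem intMark_closure : Subgroup.closure (Set.range intMark) = ⊤ := by
  refine eq_top_iff.2 fun g _ => ?_
  have : g = intMark () ^ Multiplicative.toAdd g := by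
    apply Multiplicative.toAdd.injective
    simp [intMark]
  rw [this]
  exact zpow_mem (Subgroup.subset_closure (Set.mem_range_self ())) _

theorem nice_int : Nice intMark := by
  refine ⟨⟨{
    E := Empty
    h := Empty.elim
    π := fun _ e => e.elim
    π_mul := fun _ _ => funext fun e => e.elim
    π_mark := fun _ e => e.elim
    π_gen := fun e => e.elim
    π_off := fun e => e.elim
    gen := eq_top_iff.2 (intMark_closure.symm.le.trans
      (Subgroup.closure_mono Set.subset_union_right))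
    root := fun χ n hn _ => ?_ }⟩, ?_⟩
  · obtain ⟨x, hx⟩ := IsAlgClosed.exists_pow_nat_eq (χ (intMark ())) hn
    have hx0 : x ≠ 0 := fun h => char_ne_zero χ (intMark ()) (by rw [← hx, h, zero_pow hn.ne'])
    refine ⟨(Units.coeHom ℂ).comp (zpowersHom ℂˣ (Units.mk0 x hx0)), fun g => ?_⟩
    have : (powMonoidHom n).comp (zpowersHom ℂˣ (Units.mk0 x hx0)) = unitsChar χ :=
      MonoidHom.ext_mint (Units.ext (by simpa [unitsChar, intMark] using hx))
    simpa [unitsChar] using congrArg Units.val (DFunLike.congr_fun this g)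
  intro r hr K _
  refine ⟨⊥, inferInstance, fun f _ hf ρ hρ hi => hf ρ hρ (fun v => ?_) hi⟩
  have hscal : ∀ g, ∃ c : ℂ, ρ g = c • 1 := fun g =>
    schurF_of_irredF hi (ρ g) fun x => by rw [← map_mul, ← map_mul, mul_comm]
  have hr1 : r = 1 := by
    rcases simpF_of_irredF hi (Submodule.span ℂ {Pi.single ⟨0, hr⟩ 1}) (fun g v hv => by
      obtain ⟨c, hc⟩ := hscal g
      rw [hc, smul_mulVec, one_mulVec]
      exact Submodule.smul_mem _ c hv) with h0 | h0
    · rw [Submodule.span_singleton_eq_bot] at h0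
      simpa using congrFun h0 ⟨0, hr⟩
    · have h := congrArg (fun W : Submodule ℂ (Fin r → ℂ) => Module.finrank ℂ W) h0
      simp only [finrank_top, Module.finrank_fin_fun] at h
      rw [finrank_span_singleton (by
        intro h1; simpa using congrFun h1 ⟨0, hr⟩)] at h
      exact h.symm
  subst hr1
  obtain ⟨c, hc⟩ := hscal v.1
  have hc1 : c = 1 := by simpa [hc, det_fin_one] using hρ.1 v.1
  rw [show ev ρ v = ρ v.1 v.2.1 v.2.2 from rfl, hc, hc1, one_smul, Matrix.one_apply]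
  split_ifs
  exacts [⟨one_mem _, isIntegral_one⟩, ⟨zero_mem _, isIntegral_zero⟩]

theorem rootN_of_pow_eq_one {r m : ℕ} {M : Mat r ℂ} (h : M ^ m = 1) : RootN m M := by
  intro z hz
  obtain ⟨v, hv, e⟩ := (isRoot_charpoly_iff M z).1 hz
  have hp : ∀ i : ℕ, (M ^ i) *ᵥ v = z ^ i • v := by
    intro i
    induction i with
    | zero => simp
    | succ i ih => rw [pow_succ, ← mulVec_mulVec, e, mulVec_smul, ih, smul_smul, pow_succ, mul_comm]
  have h1 := hp m
  rw [h, one_mulVec] at h1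
  obtain ⟨i, hi⟩ := Function.ne_iff.1 hv
  have h2 := congrFun h1 i
  rw [Pi.smul_apply, smul_eq_mul] at h2
  exact mul_right_cancel₀ hi (by rw [one_mul]; exact h2.symm)

/-- Prescribed classes where `o j = 0`, prescribed orders elsewhere. -/
def OrbCond {G J : Type} [Group G] {r : ℕ} (μ : J → G) (K : J → SpecialLinearGroup (Fin r) ℂ)
    (o : J → ℕ) (ρ : G →* SpecialLinearGroup (Fin r) ℂ) : Prop :=
  ∀ j, (o j = 0 → ∃ T, ρ (μ j) = T * K j * T⁻¹) ∧ ρ (μ j) ^ o j = 1

/-- Density with prescribed classes or orders at the marked elements. -/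
theorem sl_density_orb {G J : Type} [Group G] [Finite J] {μ : J → G} (h : Nice μ) {r : ℕ}
    (hr : 0 < r) (K : J → SpecialLinearGroup (Fin r) ℂ) (o : J → ℕ)
    (hK : ∀ j, o j = 0 → QUni (K j).1) :
    ∃ L : IntermediateField ℚ ℂ, FiniteDimensional ℚ L ∧
      ∀ f : MvPolynomial (RVar G r) ℂ,
      (∀ ρ : G →* SpecialLinearGroup (Fin r) ℂ, OrbCond μ K o ρ →
        (∀ g i k, (ρ g).1 i k ∈ L ∧ IsIntegral ℤ ((ρ g).1 i k)) →
        SemisimpleF (fun g => (ρ g).1) → eval (fun v => (ρ v.1).1 v.2.1 v.2.2) f = 0) →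
      (∀ ρ : G →* SpecialLinearGroup (Fin r) ℂ, OrbCond μ K o ρ →
        ∀ T : SpecialLinearGroup (Fin r) ℂ,
          eval (fun v => (T * ρ v.1 * T⁻¹).1 v.2.1 v.2.2) f =
            eval (fun v => (ρ v.1).1 v.2.1 v.2.2) f) →
      ∀ ρ : G →* SpecialLinearGroup (Fin r) ℂ, OrbCond μ K o ρ →
        SemisimpleF (fun g => (ρ g).1) → eval (fun v => (ρ v.1).1 v.2.1 v.2.2) f = 0 := by
  classical
  obtain ⟨N₀, hN₀, hKN⟩ := exists_rootN (J := {j // o j = 0}) (r := r)
    (K := fun j => (K j.1).1) fun j => hK j.1 j.2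
  have := Fintype.ofFinite J
  set N := N₀ * ∏ j, (if o j = 0 then 1 else o j) with hNdef
  have hN : 0 < N := Nat.mul_pos hN₀ (Finset.prod_pos fun j _ => by split_ifs <;> omega)
  have : NeZero N := ⟨hN.ne'⟩
  let Idx := {t : Ty J r N // ∀ j, (tyMat t j).det = 1}
  let Kt : Idx → J → SpecialLinearGroup (Fin r) ℂ := fun t j => ⟨tyMat t.1 j, t.2 j⟩
  have hall := fun t : Idx => sl_density h hr (Kt t) fun j => qUni_tyMat hN t.1 j
  choose Ls hLfd hLs using hall
  obtain ⟨L, hL, hle, -⟩ := exists_field Ls hLfd ∅ (fun z hz => by simp at hz)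
  refine ⟨L, hL, fun f hf hinv ρ hρ hss => ?_⟩
  have hroot : ∀ j, RootN N (ρ (μ j)).1 := fun j => by
    by_cases hj : o j = 0
    · obtain ⟨T, hT⟩ := (hρ j).1 hj
      have e : (ρ (μ j)).1 = T.1 * (K j).1 * T.1⁻¹ := by
        rw [hT]
        exact congrArg (fun M => T.1 * (K j).1 * M) (adjugate_eq_inv T.2).symm
      rw [e]
      exact ((hKN ⟨j, hj⟩).mono (dvd_mul_right _ _)).conj (by rw [T.2]; exact isUnit_one)
    · refine (rootN_of_pow_eq_one (m := o j) ?_).mono ?_
      · exact congrArg Subtype.val (hρ j).2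
      · refine dvd_mul_of_dvd_right ?_ _
        have := Finset.dvd_prod_of_mem (fun j => if o j = 0 then 1 else o j) (Finset.mem_univ j)
        simpa [hj] using this
  obtain ⟨t, ht⟩ := exists_ty (K := fun j => (ρ (μ j)).1) hroot
  have htd : ∀ j, (tyMat t j).det = 1 := fun j => by
    obtain ⟨S, hS, e⟩ := ht j
    rw [← det_conj_of hS (tyMat t j), ← e]
    exact (ρ (μ j)).2
  have hρt : ∀ j, ∃ T, ρ (μ j) = T * Kt ⟨t, htd⟩ j * T⁻¹ := fun j => by
    obtain ⟨S, hS, e⟩ := ht j
    obtain ⟨T, hT⟩ := exists_sl_scale hr hS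
    exact ⟨T, Subtype.ext (e.trans (hT _).symm)⟩
  have hcond : ∀ σ : G →* SpecialLinearGroup (Fin r) ℂ,
      (∀ j, ∃ T, σ (μ j) = T * Kt ⟨t, htd⟩ j * T⁻¹) → OrbCond μ K o σ := fun σ hσ j => by
    obtain ⟨T, hT⟩ := hσ j
    obtain ⟨T', hT'⟩ := hρt j
    have e : σ (μ j) = T * T'⁻¹ * ρ (μ j) * (T * T'⁻¹)⁻¹ := by rw [hT, hT']; group
    refine ⟨fun hj => ?_, ?_⟩
    · obtain ⟨U, hU⟩ := (hρ j).1 hj
      exact ⟨T * T'⁻¹ * U, by rw [e, hU]; group⟩
    · rw [e, conj_pow, (hρ j).2, mul_one, mul_inv_cancel]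
  exact hLs ⟨t, htd⟩ f
    (fun σ hσ hint hs => hf σ (hcond σ hσ)
      (fun g i k => ⟨hle _ (hint g i k).1, (hint g i k).2⟩) hs)
    (fun σ hσ T => hinv σ (hcond σ hσ) T) ρ hρt hss

/-- Surface groups, free groups and marked infinite cyclic groups. -/
theorem nice_products_int {k l p : ℕ} (n s : Fin k → ℕ)
    (hns : ∀ i, 3 ≤ n i ∨ (2 ≤ n i ∧ s i = 0)) (d : Fin l → ℕ) :
    Nice (prodMark
      (prodMark (piMark fun i => surfMark (n i) (s i)) (piMark fun j => freeMark (d j)))
      (piMark fun _ : Fin p => intMark)) :=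
  (nice_products n s hns d).prod (Nice.pi _ fun _ => nice_int)

end Vale.Agent.P002
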