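import Vale.Agent.P002.Prod.Defs
import Vale.Agent.P002.Punct.RedBlocks

/-!
From density on irreducible representations to density on semisimple ones: induction on the rank,
splitting off blocks and spreading their determinants over the torus of characters.
-/

namespace Vale.Agent.P002

open Matrix MvPolynomial
open Red

variable {G : Type*} [Group G] {J : Type*} {r A B : ℕ} {μ : J → G}

theorem semisimpleF_blk {ι : Type*} (e : Fin A ⊕ Fin B ≃ Fin r) {a : ι → Mat A ℂ}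
    {b : ι → Mat B ℂ} (ha : SemisimpleF a) (hb : SemisimpleF b) :
    SemisimpleF fun i => Red.blk e (a i) 0 (b i) := by
  intro W hW
  let iA : (Fin A → ℂ) →ₗ[ℂ] (Fin r → ℂ) :=
    { toFun := fun v p => Sum.elim v 0 (e.symm p)
      map_add' := fun v w => by funext p; dsimp; cases e.symm p <;> simp
      map_smul' := fun c v => by funext p; dsimp; cases e.symm p <;> simp }
  let iB : (Fin B → ℂ) →ₗ[ℂ] (Fin r → ℂ) :=
    { toFun := fun v p => Sum.elim 0 v (e.symm p)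
      map_add' := fun v w => by funext p; dsimp; cases e.symm p <;> simp
      map_smul' := fun c v => by funext p; dsimp; cases e.symm p <;> simp }
  let pB : (Fin r → ℂ) →ₗ[ℂ] (Fin B → ℂ) := LinearMap.funLeft ℂ ℂ fun k => e (Sum.inr k)
  have hmul : ∀ i v, Red.blk e (a i) 0 (b i) *ᵥ v = iA (a i *ᵥ fun k => v (e (Sum.inl k))) +
      iB (b i *ᵥ fun k => v (e (Sum.inr k))) := fun i v => by
    funext p
    obtain ⟨q, rfl⟩ := e.surjective p
    rcases q with k | k <;>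
      simp [iA, iB, Red.blk, Matrix.mulVec, dotProduct, ← e.sum_comp, Fintype.sum_sum_type]
  have hsplit : ∀ v, v = iA (fun k => v (e (Sum.inl k))) + iB (pB v) := fun v => by
    funext p
    obtain ⟨q, rfl⟩ := e.surjective p
    rcases q with k | k <;> simp [iA, iB, pB, LinearMap.funLeft]
  obtain ⟨U₁, hU₁, hc₁⟩ := ha (W.comap iA) fun i v hv => by
    rw [Submodule.mem_comap] at hv ⊢
    have := hW i _ hv
    simp only [hmul] at this
    rw [show (fun k => iA v (e (Sum.inl k))) = v from funext fun k => by simp [iA],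
      show (fun k => iA v (e (Sum.inr k))) = 0 from funext fun k => by simp [iA],
      mulVec_zero, map_zero, add_zero] at this
    exact this
  obtain ⟨U₂, hU₂, hc₂⟩ := hb (W.map pB) fun i v hv => by
    obtain ⟨w, hw, rfl⟩ := Submodule.mem_map.1 hv
    refine Submodule.mem_map.2 ⟨_, hW i w hw, ?_⟩
    simp only [hmul]
    funext k
    simp [iA, iB, pB, LinearMap.funLeft, Function.comp_def]
  refine ⟨U₁.map iA ⊔ U₂.map iB, fun i v hv => ?_, ?_, ?_⟩
  · obtain ⟨x, hx, y, hy, rfl⟩ := Submodule.mem_sup.1 hv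
    obtain ⟨u, hu, rfl⟩ := Submodule.mem_map.1 hx
    obtain ⟨z, hz, rfl⟩ := Submodule.mem_map.1 hy
    refine Submodule.mem_sup.2 ⟨_, Submodule.mem_map_of_mem (hU₁ i u hu), _,
      Submodule.mem_map_of_mem (hU₂ i z hz), ?_⟩
    rw [hmul]
    congr 2 <;> congr 1 <;> funext k <;> simp [iA, iB]
  · rw [Submodule.disjoint_def]
    intro w hw hw'
    obtain ⟨x, hx, y, hy, rfl⟩ := Submodule.mem_sup.1 hw'
    obtain ⟨u, hu, rfl⟩ := Submodule.mem_map.1 hx
    obtain ⟨z, hz, rfl⟩ := Submodule.mem_map.1 hy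
    have hz0 : z = 0 := by
      refine Submodule.disjoint_def.1 hc₂.disjoint z (Submodule.mem_map.2 ⟨_, hw, ?_⟩) hz
      funext k
      simp [iA, iB, pB, LinearMap.funLeft]
    subst hz0
    rw [map_zero, add_zero] at hw ⊢
    rw [Submodule.disjoint_def.1 hc₁.disjoint u hw hu, map_zero]
  · rw [codisjoint_iff, Submodule.eq_top_iff']
    intro v
    obtain ⟨x, hx, z, hz, e₂⟩ := Submodule.mem_sup.1
      (hc₂.sup_eq_top ▸ Submodule.mem_top : pB v ∈ W.map pB ⊔ U₂)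
    obtain ⟨w, hw, rfl⟩ := Submodule.mem_map.1 hx
    obtain ⟨y, hy, u, hu, e₁⟩ := Submodule.mem_sup.1 (hc₁.sup_eq_top ▸ Submodule.mem_top :
      (fun k => v (e (Sum.inl k)) - w (e (Sum.inl k))) ∈ W.comap iA ⊔ U₁)
    refine Submodule.mem_sup.2 ⟨w + iA y, W.add_mem hw hy, iA u + iB z,
      Submodule.mem_sup.2 ⟨_, Submodule.mem_map_of_mem hu, _, Submodule.mem_map_of_mem hz, rfl⟩, ?_⟩
    have hA : iA (fun k => v (e (Sum.inl k)) - w (e (Sum.inl k))) = iA y + iA u := by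
      rw [← e₁, map_add]
    have hB : iB (pB v) = iB (pB w) + iB z := by rw [← e₂, map_add]
    rw [show (fun k => v (e (Sum.inl k)) - w (e (Sum.inl k))) =
      (fun k => v (e (Sum.inl k))) - fun k => w (e (Sum.inl k)) from rfl, map_sub] at hA
    rw [hsplit v, hB, sub_eq_iff_eq_add.1 hA]
    conv_lhs => rw [hsplit w]
    abel

theorem blk_inj (e : Fin A ⊕ Fin B ≃ Fin r) {a a' : Mat A ℂ} {b b' : Mat B ℂ}
    (h : Red.blk e a 0 b = Red.blk e a' 0 b') : a = a' ∧ b = b' := by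
  have := (Matrix.fromBlocks_inj.1 ((Matrix.reindex e e).injective h))
  exact ⟨this.1, this.2.2.2⟩

theorem isUnit_blk (e : Fin A ⊕ Fin B ≃ Fin r) {a : Mat A ℂ} {b : Mat B ℂ} (ha : IsUnit a.det)
    (hb : IsUnit b.det) : IsUnit (Red.blk e a 0 b).det := by
  rw [Red.blk_det]; exact ha.mul hb

/-- The direct sum of two representations. -/
def blkH (e : Fin A ⊕ Fin B ≃ Fin r) (σ : G →* Mat A ℂ) (τ : G →* Mat B ℂ) : G →* Mat r ℂ where
  toFun g := Red.blk e (σ g) 0 (τ g)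
  map_one' := by rw [map_one, map_one, Red.blk_one]
  map_mul' a b := by rw [map_mul, map_mul, Red.blk_mul]; simp

theorem blkH_apply (e : Fin A ⊕ Fin B ≃ Fin r) (σ : G →* Mat A ℂ) (τ : G →* Mat B ℂ) (g : G) :
    blkH e σ τ g = Red.blk e (σ g) 0 (τ g) := rfl

theorem rootN_blocks (e : Fin A ⊕ Fin B ≃ Fin r) {N : ℕ} {a : Mat A ℂ} {b : Mat B ℂ}
    (h : RootN N (Red.blk e a 0 b)) : RootN N a ∧ RootN N b := by
  constructor <;> intro z hz <;> refine h z ?_ <;>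
    rw [Red.blk, Matrix.reindex_apply, ← Matrix.reindex_apply, charpoly_reindex,
      charpoly_fromBlocks_zero₂₁, Polynomial.IsRoot.def, Polynomial.eval_mul]
  · rw [show Polynomial.eval z a.charpoly = 0 from hz, zero_mul]
  · rw [show Polynomial.eval z b.charpoly = 0 from hz, mul_zero]

/-- Prescribed classes and trivial determinant on the free directions. -/
def HRep (C : Chars μ) (K : J → Mat r ℂ) (ρ : G →* Mat r ℂ) : Prop :=
  HasClass μ K ρ ∧ ∀ e, (ρ (C.h e)).det = 1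

/-- One field makes the integral semisimple representations dense among the semisimple ones. -/
def SDens (C : Chars μ) (K : J → Mat r ℂ) (L : IntermediateField ℚ ℂ) : Prop :=
  ∀ f : MvPolynomial (RVar G r) ℂ, InvF (HRep C K) f →
    (∀ ρ, HRep C K ρ → IntOn L ρ → SemisimpleF ρ → eval (ev ρ) f = 0) →
    ∀ ρ, HRep C K ρ → SemisimpleF ρ → eval (ev ρ) f = 0

theorem hasClass_scale {K : J → Mat r ℂ} {ρ : G →* Mat r ℂ} {χ : G →* ℂ}
    (hχ : ∀ j, χ (μ j) = 1) (h : HasClass μ K ρ) : HasClass μ K (scaleH χ ρ) := fun j => by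
  obtain ⟨S, hS, e⟩ := h j
  exact ⟨S, hS, by rw [scaleH_apply, hχ, one_smul, e]⟩

theorem hasClass_blk (e : Fin A ⊕ Fin B ≃ Fin r) {KA : J → Mat A ℂ} {KB : J → Mat B ℂ}
    {K : J → Mat r ℂ} (hG : ∀ j, ∃ S : Mat r ℂ, IsUnit S.det ∧
      Red.blk e (KA j) 0 (KB j) = S * K j * S⁻¹) {σ : G →* Mat A ℂ} {τ : G →* Mat B ℂ}
    (hσ : HasClass μ KA σ) (hτ : HasClass μ KB τ) : HasClass μ K (blkH e σ τ) := fun j => by
  obtain ⟨S₁, hS₁, e₁⟩ := hσ j
  obtain ⟨S₂, hS₂, e₂⟩ := hτ j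
  obtain ⟨S, hS, e₀⟩ := hG j
  refine ⟨Red.blk e S₁ 0 S₂ * S, by rw [det_mul]; exact (isUnit_blk e hS₁ hS₂).mul hS, ?_⟩
  rw [blkH_apply, e₁, e₂, Matrix.mul_inv_rev,
    show (Red.blk e S₁ 0 S₂)⁻¹ = Red.blk e S₁⁻¹ 0 S₂⁻¹ by rw [Red.blk_inv e hS₁ _ hS₂]; simp]
  have : Red.blk e (S₁ * KA j * S₁⁻¹) 0 (S₂ * KB j * S₂⁻¹) =
      Red.blk e S₁ 0 S₂ * Red.blk e (KA j) 0 (KB j) * Red.blk e S₁⁻¹ 0 S₂⁻¹ := by
    simp [Red.blk_mul]
  rw [this, e₀]
  simp only [mul_assoc]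

theorem mem_intRing_zpow {L : IntermediateField ℚ ℂ} {x y : ℂ} (hxy : x * y = 1)
    (hx : x ∈ intRing L) (hy : y ∈ intRing L) (n : ℤ) : x ^ n ∈ intRing L := by
  obtain ⟨m, rfl | rfl⟩ := n.eq_nat_or_neg
  · rw [_root_.zpow_natCast]; exact pow_mem hx m
  · rw [_root_.zpow_neg, _root_.zpow_natCast, ← inv_pow, ← eq_inv_of_mul_eq_one_right hxy]
    exact pow_mem hy m

theorem mem_intRing_root {L : IntermediateField ℚ ℂ} {z : ℂ} {M : ℕ} (hM : 0 < M)
    (hL : ∀ x : ℂ, x ^ M = 1 → x ∈ L) (hz : z ^ M = 1) : z ∈ intRing L :=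
  (mem_intRing L).2 ⟨hL z hz, IsIntegral.of_pow hM (by rw [hz]; exact isIntegral_one)⟩

/-- The entry of a direct sum as a function of the two blocks. -/
theorem blk_entry (e : Fin A ⊕ Fin B ≃ Fin r) (a : Mat A ℂ) (b : Mat B ℂ) (p q : Fin r) :
    Red.blk e a 0 b p q = Matrix.fromBlocks a 0 0 b (e.symm p) (e.symm q) := rfl

theorem intOn_blk {L : IntermediateField ℚ ℂ} (e : Fin A ⊕ Fin B ≃ Fin r) {σ : G →* Mat A ℂ}
    {τ : G →* Mat B ℂ} (hσ : IntOn L σ) (hτ : IntOn L τ) : IntOn L (blkH e σ τ) := by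
  rintro ⟨g, p, q⟩
  refine (mem_intRing L).1 ?_
  change Red.blk e (σ g) 0 (τ g) p q ∈ _
  rw [blk_entry]
  rcases e.symm p with i | i <;> rcases e.symm q with k | k <;>
    simp only [fromBlocks_apply₁₁, fromBlocks_apply₁₂, fromBlocks_apply₂₁, fromBlocks_apply₂₂,
      Matrix.zero_apply]
  exacts [(mem_intRing L).2 (hσ (g, i, k)), zero_mem _, zero_mem _,
    (mem_intRing L).2 (hτ (g, i, k))]

theorem intOn_scale {L : IntermediateField ℚ ℂ} {χ : G →* ℂ} {ρ : G →* Mat r ℂ}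
    (hχ : ∀ g, χ g ∈ intRing L) (hρ : IntOn L ρ) : IntOn L (scaleH χ ρ) := fun v => by
  refine (mem_intRing L).1 ?_
  change (χ v.1 • ρ v.1) v.2.1 v.2.2 ∈ _
  rw [Matrix.smul_apply, smul_eq_mul]
  exact mul_mem (hχ _) ((mem_intRing L).2 (hρ v))

theorem intRing_mono {L L' : IntermediateField ℚ ℂ} (h : L ≤ L') {x : ℂ} (hx : x ∈ intRing L) :
    x ∈ intRing L' := (mem_intRing L').2 ⟨h ((mem_intRing L).1 hx).1, ((mem_intRing L).1 hx).2⟩

/-- The twists used for two blocks. -/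
noncomputable def twl (C : Chars μ) (n : ℤ) (ζ w : C.E → ℂ) (hζ : ∀ e, ζ e ≠ 0)
    (hw : ∀ e, w e ≠ 0) : G →* ℂ :=
  C.tw (fun e => ζ e * w e ^ n) fun e => mul_ne_zero (hζ e) (zpow_ne_zero n (hw e))

/-- The monomial of a twist. -/
noncomputable def twPoly (C : Chars μ) (n : ℤ) (ζ : C.E → ℂ) (g : G) :
    MvPolynomial (C.E ⊕ C.E) ℂ :=
  ∏ e, MvPolynomial.C (ζ e ^ C.π g e) *
    (X (Sum.inl e) ^ (n * C.π g e).toNat * X (Sum.inr e) ^ (-(n * C.π g e)).toNat)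

theorem eval_twPoly (C : Chars μ) (n : ℤ) (ζ w : C.E → ℂ) (hζ : ∀ e, ζ e ≠ 0)
    (hw : ∀ e, w e ≠ 0) (g : G) :
    eval (Sum.elim w fun e => (w e)⁻¹) (twPoly C n ζ g) = twl C n ζ w hζ hw g := by
  rw [show twl C n ζ w hζ hw g = ∏ e, (ζ e * w e ^ n) ^ C.π g e from rfl, twPoly, map_prod]
  refine Finset.prod_congr rfl fun e _ => ?_
  simp only [map_mul, map_pow, eval_C, eval_X, Sum.elim_inl, Sum.elim_inr, mul_zpow, ← _root_.zpow_mul]
  congr 1
  generalize n * C.π g e = k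
  obtain ⟨m, rfl | rfl⟩ := k.eq_nat_or_neg <;> simp [_root_.zpow_neg]

section Block

variable (C : Chars μ) (e : Fin A ⊕ Fin B ≃ Fin r) (ζ : C.E → ℂ) (hζ : ∀ i, ζ i ≠ 0)

/-- Two blocks with their determinants spread over the torus. -/
noncomputable def twBlk (w : C.E → ℂ) (hw : ∀ i, w i ≠ 0) (σ : G →* Mat A ℂ) (τ : G →* Mat B ℂ) :
    G →* Mat r ℂ :=
  blkH e (scaleH (twl C B 1 w (fun _ => one_ne_zero) hw) σ)
    (scaleH (twl C (-A) ζ w hζ hw) τ)

variable {KA : J → Mat A ℂ} {KB : J → Mat B ℂ} {K : J → Mat r ℂ}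

theorem hRep_twBlk (hG : ∀ j, ∃ S : Mat r ℂ, IsUnit S.det ∧
      Red.blk e (KA j) 0 (KB j) = S * K j * S⁻¹) (hζB : ∀ i, ζ i ^ B = 1) {w : C.E → ℂ}
    (hw : ∀ i, w i ≠ 0) {σ : G →* Mat A ℂ} {τ : G →* Mat B ℂ} (hσ : HRep C KA σ)
    (hτ : HRep C KB τ) : HRep C K (twBlk C e ζ hζ w hw σ τ) := by
  refine ⟨hasClass_blk e hG (hasClass_scale (fun j => Chars.tw_mark C _ _ j) hσ.1)
    (hasClass_scale (fun j => Chars.tw_mark C _ _ j) hτ.1), fun i => ?_⟩
  rw [twBlk, blkH_apply, Red.blk_det, scaleH_apply, scaleH_apply, det_smul, det_smul, hσ.2, hτ.2]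
  simp only [twl, Chars.tw_gen, Fintype.card_fin, mul_one, mul_pow, hζB, one_mul, Pi.one_apply]
  rw [← _root_.zpow_natCast, ← _root_.zpow_natCast, ← _root_.zpow_mul, ← _root_.zpow_mul, ← zpow_add₀ (hw i)]
  convert zpow_zero (w i) using 2
  ring

theorem semisimple_twBlk {w : C.E → ℂ} (hw : ∀ i, w i ≠ 0) {σ : G →* Mat A ℂ}
    {τ : G →* Mat B ℂ} (hσ : SemisimpleF σ) (hτ : SemisimpleF τ) :
    SemisimpleF (twBlk C e ζ hζ w hw σ τ) :=
  semisimpleF_blk e (semisimpleF_smul (fun g => char_ne_zero _ g) hσ)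
    (semisimpleF_smul (fun g => char_ne_zero _ g) hτ)

theorem intertwine_twBlk {w : C.E → ℂ} (hw : ∀ i, w i ≠ 0) {σ σ' : G →* Mat A ℂ}
    {τ τ' : G →* Mat B ℂ} {S : Mat A ℂ} {T : Mat B ℂ} (hσ : ∀ g, σ' g * S = S * σ g)
    (hτ : ∀ g, τ' g * T = T * τ g) (g : G) :
    twBlk C e ζ hζ w hw σ' τ' g * Red.blk e S 0 T = Red.blk e S 0 T * twBlk C e ζ hζ w hw σ τ g := by
  simp [twBlk, blkH_apply, scaleH_apply, Red.blk_mul, Matrix.smul_mul, Matrix.mul_smul, hσ, hτ]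

/-- A polynomial killing the integral semisimple representations kills the sums of blocks. -/
theorem vanish_block {LA LB L : IntermediateField ℚ ℂ} (hLA : LA ≤ L) (hLB : LB ≤ L)
    (hA : SDens C KA LA) (hB : SDens C KB LB) {ε ε' : ℂ} (hε : ε * ε' = 1)
    (hεL : ε ∈ intRing L) (hεL' : ε' ∈ intRing L) (hinj : Function.Injective fun n : ℕ => ε ^ n)
    (hζB : ∀ i, ζ i ^ B = 1) (hζL : ∀ i, ζ i ∈ intRing L) (hBpos : 0 < B)
    (hG : ∀ j, ∃ S : Mat r ℂ, IsUnit S.det ∧ Red.blk e (KA j) 0 (KB j) = S * K j * S⁻¹)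
    (f : MvPolynomial (RVar G r) ℂ) (hinv : InvF (HRep C K) f)
    (hf : ∀ ρ, HRep C K ρ → IntOn L ρ → SemisimpleF ρ → eval (ev ρ) f = 0)
    {w : C.E → ℂ} (hw : ∀ i, w i ≠ 0) {σ : G →* Mat A ℂ} {τ : G →* Mat B ℂ}
    (hσ : HRep C KA σ) (hσs : SemisimpleF σ) (hτ : HRep C KB τ) (hτs : SemisimpleF τ) :
    eval (ev (twBlk C e ζ hζ w hw σ τ)) f = 0 := by
  -- the entries as polynomials in the torus parameter
  have step1 : ∀ σ τ, HRep C KA σ → IntOn LA σ → SemisimpleF σ → HRep C KB τ → IntOn LB τ →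
      SemisimpleF τ → ∀ (w : C.E → ℂ) (hw : ∀ i, w i ≠ 0),
      eval (ev (twBlk C e ζ hζ w hw σ τ)) f = 0 := by
    intro σ τ hσ hσi hσs hτ hτi hτs w hw
    let s : RVar G r → MvPolynomial (C.E ⊕ C.E) ℂ := fun v =>
      Matrix.fromBlocks ((σ v.1).map MvPolynomial.C * Matrix.scalar (Fin A) (twPoly C B 1 v.1)) 0 0
        ((τ v.1).map MvPolynomial.C * Matrix.scalar (Fin B) (twPoly C (-A) ζ v.1))
        (e.symm v.2.1) (e.symm v.2.2)
    have hs : ∀ (w : C.E → ℂ) (hw : ∀ i, w i ≠ 0),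
        eval (Sum.elim w fun i => (w i)⁻¹) (bind₁ s f) =
          eval (ev (twBlk C e ζ hζ w hw σ τ)) f := fun w hw => by
      rw [eval_subst]
      congr 2
      funext ⟨g, p, q⟩
      change _ = Red.blk e _ 0 _ p q
      rw [blk_entry]
      simp only [s]
      rcases e.symm p with i | i <;> rcases e.symm q with k | k <;>
        simp [Matrix.scalar_apply, mul_diagonal, scaleH_apply,
          eval_twPoly C _ _ w (fun _ => one_ne_zero) hw, eval_twPoly C _ _ w hζ hw, mul_comm] <;>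
        first | rfl | exact Or.inl (eval_twPoly C _ _ w (fun _ => one_ne_zero) hw g)
    rw [← hs w hw]
    refine laurent_zero hε hinj _ (fun k => ?_) w hw
    have hk : ∀ i, ε ^ k i ≠ 0 := fun i => pow_ne_zero _ (left_ne_zero_of_mul_eq_one hε)
    have hinvk : (fun i => (ε ^ k i)⁻¹) = fun i => ε' ^ k i := funext fun i => by
      rw [← inv_pow, eq_inv_of_mul_eq_one_right hε]
    rw [← hinvk, hs _ hk]
    refine hf _ (hRep_twBlk C e ζ hζ hG hζB hk hσ hτ) ?_ (semisimple_twBlk C e ζ hζ hk hσs hτs)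
    have hζ' : ∀ i, ζ i * ζ i ^ (B - 1) = 1 := fun i => by
      rw [← pow_succ', Nat.sub_add_cancel hBpos, hζB]
    have hpow : ∀ i (n : ℤ), (ε ^ k i) ^ n ∈ intRing L := fun i n =>
      mem_intRing_zpow (show ε ^ k i * ε' ^ k i = 1 by rw [← mul_pow, hε, one_pow])
        (pow_mem hεL _) (pow_mem hεL' _) n
    refine intOn_blk e (intOn_scale (fun g => prod_mem fun i _ => ?_) (hσi.mono hLA))
      (intOn_scale (fun g => prod_mem fun i _ => ?_) (hτi.mono hLB))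
    · simp only [Pi.one_apply, one_mul, ← _root_.zpow_mul]
      exact hpow i _
    · rw [mul_zpow, ← _root_.zpow_mul]
      exact mul_mem (mem_intRing_zpow (hζ' i) (hζL i) (pow_mem (hζL i) _) _) (hpow i _)
  -- vary the first block
  have step2 : ∀ τ, HRep C KB τ → IntOn LB τ → SemisimpleF τ →
      eval (ev (twBlk C e ζ hζ w hw σ τ)) f = 0 := by
    intro τ hτ hτi hτs
    let s : RVar G r → MvPolynomial (RVar G A) ℂ := fun v =>
      Matrix.fromBlocks (Matrix.of fun i k =>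
          MvPolynomial.C (twl C B 1 w (fun _ => one_ne_zero) hw v.1) * X (v.1, i, k))
        0 0 ((scaleH (twl C (-A) ζ w hζ hw) τ v.1).map MvPolynomial.C)
        (e.symm v.2.1) (e.symm v.2.2)
    have hs : ∀ σ : G →* Mat A ℂ,
        eval (ev σ) (bind₁ s f) = eval (ev (twBlk C e ζ hζ w hw σ τ)) f := fun σ => by
      rw [eval_subst]
      congr 2
      funext ⟨g, p, q⟩
      change _ = Red.blk e _ 0 _ p q
      rw [blk_entry]
      simp only [s]
      rcases e.symm p with i | i <;> rcases e.symm q with k | k <;>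
        simp [scaleH_apply, ev]
    rw [← hs]
    refine hA _ (fun σ₁ σ₂ S h₁ h₂ hS hSi => ?_) (fun σ' h' hi hss => ?_) σ hσ hσs
    · rw [hs, hs]
      exact hinv _ _ (Red.blk e S 0 1) (hRep_twBlk C e ζ hζ hG hζB hw h₁ hτ)
        (hRep_twBlk C e ζ hζ hG hζB hw h₂ hτ) (isUnit_blk e hS (by simp))
        (intertwine_twBlk C e ζ hζ hw hSi (by simp))
    · rw [hs]
      exact step1 σ' τ h' hi hss hτ hτi hτs w hw
  -- vary the second block
  let s : RVar G r → MvPolynomial (RVar G B) ℂ := fun v =>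
    Matrix.fromBlocks ((scaleH (twl C B 1 w (fun _ => one_ne_zero) hw) σ v.1).map MvPolynomial.C)
      0 0 (Matrix.of fun i k => MvPolynomial.C (twl C (-A) ζ w hζ hw v.1) * X (v.1, i, k))
      (e.symm v.2.1) (e.symm v.2.2)
  have hs : ∀ τ : G →* Mat B ℂ,
      eval (ev τ) (bind₁ s f) = eval (ev (twBlk C e ζ hζ w hw σ τ)) f := fun τ => by
    rw [eval_subst]
    congr 2
    funext ⟨g, p, q⟩
    change _ = Red.blk e _ 0 _ p q
    rw [blk_entry]
    simp only [s]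
    rcases e.symm p with i | i <;> rcases e.symm q with k | k <;> simp [scaleH_apply, ev]
  rw [← hs]
  refine hB _ (fun τ₁ τ₂ T h₁ h₂ hT hTi => ?_) (fun τ' h' hi hss => ?_) τ hτ hτs
  · rw [hs, hs]
    exact hinv _ _ (Red.blk e 1 0 T) (hRep_twBlk C e ζ hζ hG hζB hw hσ h₁)
      (hRep_twBlk C e ζ hζ hG hζB hw hσ h₂) (isUnit_blk e (by simp) hT)
      (intertwine_twBlk C e ζ hζ hw (by simp) hTi)
  · rw [hs]
    exact step2 τ' h' hi hss

end Block

/-- The irreducible case. -/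
theorem vanish_irred (C : Chars μ) {K : J → Mat r ℂ} {N : ℕ} (hr : 0 < r) (hN : 0 < N)
    (hrN : r ∣ N) (hKN : ∀ j, (K j).det ^ (N / r) = 1) (hKN' : ∀ j, RootN N (K j))
    (Ls : Ty J r N → IntermediateField ℚ ℂ)
    (hLs : ∀ t f, InvF (SLRep μ (tyMat t)) f →
      (∀ σ, SLRep μ (tyMat t) σ → IntOn (Ls t) σ → IrredF σ → eval (ev σ) f = 0) →
      ∀ σ, SLRep μ (tyMat t) σ → IrredF σ → eval (ev σ) f = 0)
    {L : IntermediateField ℚ ℂ} (hle : ∀ t, Ls t ≤ L) (hroots : ∀ z : ℂ, z ^ N = 1 → z ∈ L)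
    (f : MvPolynomial (RVar G r) ℂ) (hinv : InvF (HRep C K) f)
    (hf : ∀ ρ, HRep C K ρ → IntOn L ρ → SemisimpleF ρ → eval (ev ρ) f = 0)
    {ρ : G →* Mat r ℂ} (hρ : HRep C K ρ) (hi : IrredF ρ) : eval (ev ρ) f = 0 := by
  have hdet : ∀ j, detH ρ (μ j) = (K j).det := fun j => by
    obtain ⟨S, hS, e⟩ := hρ.1 j
    rw [detH_apply, e, det_conj_of hS]
  have hNr : r * (N / r) = N := Nat.mul_div_cancel' hrN
  obtain ⟨ψ, hψ⟩ := C.root (detH ρ) r hr fun j =>
    ⟨N / r, Nat.div_pos (Nat.le_of_dvd hN hrN) hr, by rw [hdet, hKN]⟩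
  have hψN : ∀ g, ψ g ^ N = 1 := C.pow_eq_one
    (fun e => by rw [← hNr, pow_mul, hψ, detH_apply, hρ.2, one_pow])
    (fun j => by rw [← hNr, pow_mul, hψ, hdet, hKN])
  let ψ' : G →* ℂ :=
    { toFun := fun g => (ψ g)⁻¹
      map_one' := by simp
      map_mul' := fun a b => by rw [map_mul, mul_inv] }
  let σ₀ := scaleH ψ' ρ
  have hρσ : scaleH ψ σ₀ = ρ := MonoidHom.ext fun g => by
    simp [σ₀, scaleH_apply, ψ', smul_smul, char_ne_zero ψ g]
  obtain ⟨t, ht⟩ := exists_ty (K := fun j => (ψ (μ j))⁻¹ • K j) (N := N) fun j =>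
    (hKN' j).smul (by rw [inv_pow, hψN, inv_one]) (inv_ne_zero (char_ne_zero ψ _))
  have hclass : ∀ σ : G →* Mat r ℂ, SLRep μ (tyMat t) σ → HRep C K (scaleH ψ σ) := fun σ hσ => by
    refine ⟨fun j => ?_, fun e => ?_⟩
    · obtain ⟨S₁, hS₁, e₁⟩ := hσ.2 j
      obtain ⟨S₂, hS₂, e₂⟩ := ht j
      refine ⟨S₁ * S₂⁻¹, by rw [det_mul]; exact hS₁.mul (isUnit_nonsing_inv_det S₂ hS₂), ?_⟩
      have e₃ : tyMat t j = (ψ (μ j))⁻¹ • (S₂⁻¹ * K j * S₂) := by
        rw [← Matrix.smul_mul, ← Matrix.mul_smul, e₂]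
        simp only [← mul_assoc, nonsing_inv_mul S₂ hS₂, one_mul]
        rw [nonsing_inv_mul_cancel_right _ _ hS₂]
      rw [scaleH_apply, e₁, e₃, Matrix.mul_smul, Matrix.smul_mul, smul_smul,
        mul_inv_cancel₀ (char_ne_zero ψ _), one_smul, Matrix.mul_inv_rev,
        nonsing_inv_nonsing_inv S₂ hS₂]
      simp only [mul_assoc]
    · rw [scaleH_apply, det_smul, hσ.1, Fintype.card_fin, hψ, detH_apply, hρ.2, one_mul]
  have hσ₀ : SLRep μ (tyMat t) σ₀ := by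
    refine ⟨fun g => ?_, fun j => ?_⟩
    · change ((ψ g)⁻¹ • ρ g).det = 1
      rw [det_smul, Fintype.card_fin, inv_pow, hψ, detH_apply]
      exact inv_mul_cancel₀ (char_ne_zero (detH ρ) g)
    · obtain ⟨S₁, hS₁, e₁⟩ := hρ.1 j
      obtain ⟨S₂, hS₂, e₂⟩ := ht j
      refine ⟨S₁ * S₂, by rw [det_mul]; exact hS₁.mul hS₂, ?_⟩
      change (ψ (μ j))⁻¹ • ρ (μ j) = _
      rw [e₁, ← Matrix.smul_mul, ← Matrix.mul_smul, e₂, Matrix.mul_inv_rev]
      simp only [mul_assoc]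
  let s : RVar G r → MvPolynomial (RVar G r) ℂ := fun v => MvPolynomial.C (ψ v.1) * X v
  have hs : ∀ σ, eval (ev σ) (bind₁ s f) = eval (ev (scaleH ψ σ)) f := fun σ => by
    rw [eval_subst]
    congr 2
    funext v
    simp [s, ev, scaleH_apply]
  rw [← hρσ, ← hs]
  refine hLs t _ (fun σ₁ σ₂ S h₁ h₂ hS hSi => ?_) (fun σ h hint hirr => ?_) σ₀ hσ₀
    (irredF_smul (fun g => inv_ne_zero (char_ne_zero ψ g)) hi)
  · rw [hs, hs]
    exact hinv _ _ S (hclass _ h₁) (hclass _ h₂) hS fun g => by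
      simp [scaleH_apply, Matrix.smul_mul, Matrix.mul_smul, hSi]
  · rw [hs]
    refine hf _ (hclass _ h)
      (intOn_scale (fun g => mem_intRing_root hN hroots (hψN g)) (hint.mono (hle t))) ?_
    exact simpF_semisimple (simpF_of_irredF (irredF_smul (fun g => char_ne_zero ψ g) hirr))

/-- Density among semisimple representations follows from density among irreducible ones. -/
theorem exists_sDens [Finite J] (C : Chars μ) (hD : Dens μ) :
    ∀ (r : ℕ), 0 < r → ∀ K : J → Mat r ℂ, (∀ j, QUni (K j)) →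
      ∃ L : IntermediateField ℚ ℂ, FiniteDimensional ℚ L ∧ SDens C K L := by
  intro r
  induction r using Nat.strong_induction_on with
  | _ r ih =>
  intro hr K hK
  obtain ⟨N₀, hN₀, hKN₀⟩ := exists_rootN hK
  set N := r.factorial * N₀ with hNdef
  have hN : 0 < N := Nat.mul_pos r.factorial_pos hN₀
  have : NeZero N := ⟨hN.ne'⟩
  have hKN : ∀ j, RootN N (K j) := fun j => (hKN₀ j).mono (dvd_mul_left _ _)
  have hsub : ∀ x : Σ a : {a : Fin r // 0 < (a : ℕ)}, Ty J (a.1 : ℕ) N,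
      ∃ L : IntermediateField ℚ ℂ, FiniteDimensional ℚ L ∧ SDens C (tyMat x.2) L :=
    fun x => ih _ x.1.1.2 x.1.2 _ (qUni_tyMat hN _)
  choose Ls hLfd hLs using hsub
  have htop : ∀ t : Ty J r N, ∃ L : IntermediateField ℚ ℂ, FiniteDimensional ℚ L ∧
      ∀ f, InvF (SLRep μ (tyMat t)) f →
        (∀ σ, SLRep μ (tyMat t) σ → IntOn L σ → IrredF σ → eval (ev σ) f = 0) →
        ∀ σ, SLRep μ (tyMat t) σ → IrredF σ → eval (ev σ) f = 0 := fun t =>
    hD r hr _ (qUni_tyMat hN t)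
  choose Lt hLtfd hLt using htop
  obtain ⟨ε, ε', hε, hεi, hεi', hinj⟩ := exists_unit
  classical
  let roots : Finset ℂ := Polynomial.nthRootsFinset N (1 : ℂ)
  obtain ⟨L, hL, hle, hmem⟩ := exists_field (Sum.elim Ls Lt)
    (fun i => by rcases i with i | i; exacts [hLfd i, hLtfd i]) (roots ∪ {ε, ε'}) (fun z hz => by
      rcases Finset.mem_union.1 hz with h | h
      · exact IsIntegral.of_pow hN
          (by rw [(Polynomial.mem_nthRootsFinset hN _).1 h]; exact isIntegral_one)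
      · rcases Finset.mem_insert.1 h with rfl | h
        · exact hεi
        · rw [Finset.mem_singleton.1 h]; exact hεi')
  have hroots : ∀ z : ℂ, z ^ N = 1 → z ∈ L := fun z hz =>
    hmem z (Finset.mem_union_left _ ((Polynomial.mem_nthRootsFinset hN _).2 hz))
  refine ⟨L, hL, fun f hinv hf ρ hρ hss => ?_⟩
  by_cases hsch : SchurF ρ
  · obtain ⟨q, hq⟩ := Nat.dvd_factorial hr le_rfl
    have hdiv : N / r = q * N₀ := by
      rw [hNdef, hq, mul_assoc, Nat.mul_div_cancel_left _ hr]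
    refine vanish_irred C hr hN (dvd_mul_of_dvd_left (Nat.dvd_factorial hr le_rfl) _)
      (fun j => by rw [hdiv, mul_comm, pow_mul, (hKN₀ j).det, one_pow]) hKN Lt hLt
      (fun t => hle (Sum.inr t)) hroots f hinv hf hρ
      (irredF_of_simpF (simpF_of_schurF hsch hss))
  obtain ⟨A, B, e, S, a, b, hA, hB, hS, hab⟩ := RedP.exists_split _ hss hsch
  obtain ⟨ssA, ssB⟩ := RedP.semisimple_blocks e hS hab hss
  have hAB : A + B = r := by simpa using Fintype.card_congr e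
  have hone : Red.blk e (a 1) 0 (b 1) = Red.blk e (1 : Mat A ℂ) 0 1 := by
    rw [← hab, map_one, mul_one, mul_nonsing_inv S hS, Red.blk_one]
  have hmul : ∀ g g', Red.blk e (a (g * g')) 0 (b (g * g')) = Red.blk e (a g * a g') 0 (b g * b g') :=
    fun g g' => by
      have h : S * ρ (g * g') * S⁻¹ = S * ρ g * S⁻¹ * (S * ρ g' * S⁻¹) := by
        simp only [map_mul, mul_assoc, nonsing_inv_mul_cancel_left _ _ hS]
      rw [hab, hab, hab, Red.blk_mul] at h
      simpa using h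
  let σ : G →* Mat A ℂ :=
    ⟨⟨a, (blk_inj e hone).1⟩, fun g g' => (blk_inj e (hmul g g')).1⟩
  let τ : G →* Mat B ℂ :=
    ⟨⟨b, (blk_inj e hone).2⟩, fun g g' => (blk_inj e (hmul g g')).2⟩
  have hblock : ∀ j, RootN N (σ (μ j)) ∧ RootN N (τ (μ j)) := fun j => by
    refine rootN_blocks e ?_
    obtain ⟨T, hT, eT⟩ := hρ.1 j
    change RootN N (Red.blk e (a (μ j)) 0 (b (μ j)))
    rw [← hab, eT]
    exact ((hKN j).conj hT).conj hS
  obtain ⟨tA, htA⟩ := exists_ty (K := fun j => σ (μ j)) fun j => (hblock j).1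
  obtain ⟨tB, htB⟩ := exists_ty (K := fun j => τ (μ j)) fun j => (hblock j).2
  choose u hu using fun i => IsAlgClosed.exists_pow_nat_eq (σ (C.h i)).det hA
  choose v hv using fun i => IsAlgClosed.exists_pow_nat_eq (τ (C.h i)).det hB
  choose w hw using fun i => IsAlgClosed.exists_pow_nat_eq (u i) hB
  have huv : ∀ i, u i ^ A * v i ^ B = 1 := fun i => by
    rw [hu, hv, ← Red.blk_det e (σ (C.h i)) 0 (τ (C.h i))]
    change (Red.blk e (a (C.h i)) 0 (b (C.h i))).det = 1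
    rw [← hab, det_conj_of hS, hρ.2]
  have hu0 : ∀ i, u i ≠ 0 := fun i h => by simpa [h, zero_pow hA.ne'] using huv i
  have hv0 : ∀ i, v i ≠ 0 := fun i h => by simpa [h, zero_pow hB.ne'] using huv i
  have hw0 : ∀ i, w i ≠ 0 := fun i h => by
    have := hw i; rw [h, zero_pow hB.ne'] at this; exact hu0 i this.symm
  let ζ : C.E → ℂ := fun i => v i * w i ^ A
  have hζ : ∀ i, ζ i ≠ 0 := fun i => mul_ne_zero (hv0 i) (pow_ne_zero _ (hw0 i))
  have hζB : ∀ i, ζ i ^ B = 1 := fun i => by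
    rw [mul_pow, ← pow_mul, mul_comm A B, pow_mul, hw, mul_comm, huv]
  have hζL : ∀ i, ζ i ∈ intRing L := fun i => by
    refine mem_intRing_root hN hroots ?_
    obtain ⟨q, hq⟩ := (Nat.dvd_factorial hB (by omega : B ≤ r)).mul_right N₀
    rw [hNdef, hq, pow_mul, hζB, one_pow]
  let σ' : G →* Mat A ℂ := scaleH (twl C B 1 (fun i => (w i)⁻¹) (fun _ => one_ne_zero)
    fun i => inv_ne_zero (hw0 i)) σ
  let τ' : G →* Mat B ℂ := scaleH (twl C (-A) (fun i => (ζ i)⁻¹) (fun i => (w i)⁻¹)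
    (fun i => inv_ne_zero (hζ i)) fun i => inv_ne_zero (hw0 i)) τ
  have hσ' : HRep C (tyMat tA) σ' :=
    ⟨hasClass_scale (fun j => Chars.tw_mark C _ _ j) fun j => htA j, fun i => by
      rw [scaleH_apply, det_smul, Fintype.card_fin, twl, Chars.tw_gen, ← hu i]
      simp only [Pi.one_apply, one_mul, _root_.zpow_natCast, inv_pow, hw]
      rw [inv_mul_cancel₀ (pow_ne_zero _ (hu0 i))]⟩
  have hτ' : HRep C (tyMat tB) τ' :=
    ⟨hasClass_scale (fun j => Chars.tw_mark C _ _ j) fun j => htB j, fun i => by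
      rw [scaleH_apply, det_smul, Fintype.card_fin, twl, Chars.tw_gen, ← hv i]
      simp only [ζ, _root_.zpow_neg, _root_.zpow_natCast, inv_pow, inv_inv, mul_inv]
      have := pow_ne_zero A (hw0 i)
      have := hv0 i
      field_simp
      rw [← mul_pow, one_div, inv_mul_cancel₀ (hv0 i), one_pow]⟩
  have hsum : twBlk C e ζ hζ w hw0 σ' τ' = blkH e σ τ := MonoidHom.ext fun g => by
    simp only [twBlk, blkH_apply, σ', τ', scaleH_apply, smul_smul]
    congr 1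
    · rw [show twl C B 1 w _ hw0 g * twl C B 1 _ _ _ g = 1 from ?_, one_smul]
      simp only [twl, Chars.tw, MonoidHom.coe_mk, OneHom.coe_mk, ← Finset.prod_mul_distrib]
      refine Finset.prod_eq_one fun i _ => ?_
      rw [← mul_zpow]
      simp only [Pi.one_apply, one_mul]
      rw [← mul_zpow, mul_inv_cancel₀ (hw0 i), _root_.one_zpow, _root_.one_zpow]
    · rw [show twl C (-A) ζ w _ hw0 g * twl C (-A) _ _ _ _ g = 1 from ?_, one_smul]
      simp only [twl, Chars.tw, MonoidHom.coe_mk, OneHom.coe_mk, ← Finset.prod_mul_distrib]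
      refine Finset.prod_eq_one fun i _ => ?_
      rw [← mul_zpow, mul_mul_mul_comm, mul_inv_cancel₀ (hζ i), one_mul, ← mul_zpow,
        mul_inv_cancel₀ (hw0 i), _root_.one_zpow, _root_.one_zpow]
  have hρ' : HRep C K (blkH e σ τ) := by
    refine ⟨fun j => ?_, fun i => ?_⟩
    · obtain ⟨T, hT, eT⟩ := hρ.1 j
      refine ⟨S * T, by rw [det_mul]; exact hS.mul hT, ?_⟩
      change Red.blk e (a (μ j)) 0 (b (μ j)) = _
      rw [← hab, eT, Matrix.mul_inv_rev]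
      simp only [mul_assoc]
    · change (Red.blk e (a (C.h i)) 0 (b (C.h i))).det = 1
      rw [← hab, det_conj_of hS, hρ.2]
  rw [← hinv ρ (blkH e σ τ) S hρ hρ' hS fun g => by
    change Red.blk e (a g) 0 (b g) * S = _
    rw [← hab, nonsing_inv_mul_cancel_right _ _ hS], ← hsum]
  have hlt : A < r ∧ B < r := by omega
  refine vanish_block C e ζ hζ (hle (Sum.inl ⟨⟨⟨A, hlt.1⟩, hA⟩, tA⟩))
    (hle (Sum.inl ⟨⟨⟨B, hlt.2⟩, hB⟩, tB⟩)) (hLs ⟨⟨⟨A, hlt.1⟩, hA⟩, tA⟩)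
    (hLs ⟨⟨⟨B, hlt.2⟩, hB⟩, tB⟩) hε
    ((mem_intRing L).2 ⟨hmem ε (by simp), hεi⟩) ((mem_intRing L).2 ⟨hmem ε' (by simp), hεi'⟩)
    hinj hζB hζL hB (fun j => ?_) f hinv hf hw0 hσ'
    (semisimpleF_smul (fun g => char_ne_zero _ g) ssA) hτ'
    (semisimpleF_smul (fun g => char_ne_zero _ g) ssB)
  obtain ⟨S₁, hS₁, e₁⟩ := htA j
  obtain ⟨S₂, hS₂, e₂⟩ := htB j
  obtain ⟨T, hT, eT⟩ := hρ.1 j
  refine ⟨(Red.blk e S₁ 0 S₂)⁻¹ * (S * T), ?_, ?_⟩
  · rw [det_mul, det_mul]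
    exact (isUnit_nonsing_inv_det _ (isUnit_blk e hS₁ hS₂)).mul (hS.mul hT)
  · have h : Red.blk e (σ (μ j)) 0 (τ (μ j)) = S * T * K j * (T⁻¹ * S⁻¹) := by
      change Red.blk e (a (μ j)) 0 (b (μ j)) = _
      rw [← hab, eT]
      simp only [mul_assoc]
    rw [Matrix.mul_inv_rev, Matrix.mul_inv_rev, nonsing_inv_nonsing_inv _ (isUnit_blk e hS₁ hS₂)]
    have h2 : Red.blk e (σ (μ j)) 0 (τ (μ j)) =
        Red.blk e S₁ 0 S₂ * Red.blk e (tyMat tA j) 0 (tyMat tB j) * (Red.blk e S₁ 0 S₂)⁻¹ := by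
      rw [Red.blk_inv e hS₁ _ hS₂, e₁, e₂]
      simp [Red.blk_mul]
    rw [h2] at h
    have h3 := congrArg (fun M => (Red.blk e S₁ 0 S₂)⁻¹ * M * Red.blk e S₁ 0 S₂) h
    simp only [mul_assoc, nonsing_inv_mul_cancel_left _ _ (isUnit_blk e hS₁ hS₂),
      nonsing_inv_mul _ (isUnit_blk e hS₁ hS₂), mul_one] at h3
    simp only [mul_assoc]
    exact h3

end Vale.Agent.P002
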